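import Vale.Agent.P228.Frac.Average

/-!
Sums of powers `n + 2` of oscillations over separated sets, their behaviour under averaging, and
the null set of parameters they yield.
-/

namespace Vale.Agent.P228.Var

open MeasureTheory Metric Set Function Filter
open scoped Topology ENNReal NNReal
open Frac (haarMean haarMean_spec isProbabilityMeasure_haarTop badSet)

noncomputable section

variable {E : Type*} [NormedAddCommGroup E] [NormedSpace ℝ E]
variable {F : Type*} [PseudoEMetricSpace F]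

/-- oscillation about the centre of a ball -/
def osc (h : E → F) (z : E) (δ : ℝ) : ℝ≥0∞ := ⨆ w ∈ ball z δ, edist (h w) (h z)

/-- sums of `(n + 2)`-th powers of oscillations over `δ`-separated finite subsets of `X` -/
def var (h : E → F) (X : Set E) (δ : ℝ) : ℝ≥0∞ :=
  ⨆ (S : Finset E) (_ : (S : Set E) ⊆ X)
    (_ : (S : Set E).Pairwise fun a b => δ ≤ dist a b),
    ∑ z ∈ S, osc h z δ ^ (Module.finrank ℝ E + 2)

/-- the sums tend to zero -/
def SmallVar (h : E → F) (X : Set E) : Prop := Tendsto (var h X) (𝓝[>] (0 : ℝ)) (𝓝 0)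

/-- a family of maps with bounded sums, each of which tends to zero -/
def UnifVar {ι : Type*} (g : ι → E → F) (X : Set E) : Prop :=
  (∃ (m : ℝ≥0∞) (δ₀ : ℝ), m ≠ ⊤ ∧ 0 < δ₀ ∧
    ∀ k δ, 0 < δ → δ ≤ δ₀ → var (g k) X δ ≤ m) ∧ ∀ k, SmallVar (g k) X

lemma le_var {h : E → F} {X : Set E} {δ : ℝ} {S : Finset E} (hS : (S : Set E) ⊆ X)
    (hs : (S : Set E).Pairwise fun a b => δ ≤ dist a b) :
    ∑ z ∈ S, osc h z δ ^ (Module.finrank ℝ E + 2) ≤ var h X δ :=
  le_iSup_of_le S (le_iSup_of_le hS (le_iSup_of_le hs le_rfl))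

lemma var_le {h : E → F} {X : Set E} {δ : ℝ} {m : ℝ≥0∞}
    (h' : ∀ S : Finset E, (S : Set E) ⊆ X → ((S : Set E).Pairwise fun a b => δ ≤ dist a b) →
      ∑ z ∈ S, osc h z δ ^ (Module.finrank ℝ E + 2) ≤ m) : var h X δ ≤ m :=
  iSup_le fun S => iSup_le fun h1 => iSup_le fun h2 => h' S h1 h2

lemma var_mono {h : E → F} {X Y : Set E} {δ : ℝ} (hXY : X ⊆ Y) : var h X δ ≤ var h Y δ :=
  var_le fun _ hS hs => le_var (hS.trans hXY) hs

lemma SmallVar.mono {h : E → F} {X Y : Set E} (hh : SmallVar h Y) (hXY : X ⊆ Y) : SmallVar h X :=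
  tendsto_of_tendsto_of_tendsto_of_le_of_le tendsto_const_nhds hh (fun _ => zero_le)
    fun _ => var_mono hXY

lemma var_union {h : E → F} {X Y : Set E} {δ : ℝ} : var h (X ∪ Y) δ ≤ var h X δ + var h Y δ := by
  classical
  refine var_le fun S hS hs => ?_
  rw [← Finset.sum_filter_add_sum_filter_not S (· ∈ X)]
  refine add_le_add (le_var ?_ (hs.mono ?_)) (le_var ?_ (hs.mono ?_))
  · intro z hz; exact (Finset.mem_filter.1 hz).2
  · intro z hz; exact (Finset.mem_filter.1 hz).1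
  · intro z hz
    obtain ⟨h1, h2⟩ := Finset.mem_filter.1 hz
    exact (hS h1).resolve_left h2
  · intro z hz; exact (Finset.mem_filter.1 hz).1

lemma SmallVar.union {h : E → F} {X Y : Set E} (h1 : SmallVar h X) (h2 : SmallVar h Y) :
    SmallVar h (X ∪ Y) :=
  tendsto_of_tendsto_of_tendsto_of_le_of_le tendsto_const_nhds
    (by simpa using h1.add h2) (fun _ => zero_le) fun _ => var_union

lemma smallVar_empty (h : E → F) : SmallVar h ∅ := by
  refine tendsto_const_nhds.congr' (Eventually.of_forall fun δ => ?_)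
  refine (nonpos_iff_eq_zero.1 (var_le fun S hS _ => ?_)).symm
  have : S = ∅ := Finset.coe_eq_empty.1 (subset_empty_iff.1 hS)
  simp [this]

/-- comparing two maps near `X` -/
lemma var_le_mul {F' : Type*} [PseudoEMetricSpace F'] {h : E → F} {h' : E → F'} {X : Set E} {δ : ℝ}
    {L : ℝ≥0∞} (hh : ∀ z ∈ X, ∀ w ∈ ball z δ, edist (h' w) (h' z) ≤ L * edist (h w) (h z)) :
    var h' X δ ≤ L ^ (Module.finrank ℝ E + 2) * var h X δ := by
  refine var_le fun S hS hs => le_trans ?_ (mul_le_mul_right (le_var hS hs) _)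
  rw [Finset.mul_sum]
  refine Finset.sum_le_sum fun z hz => ?_
  rw [← mul_pow]
  gcongr
  exact iSup₂_le fun w hw =>
    (hh z (hS hz) w hw).trans (mul_le_mul_right
    (le_iSup₂ (f := fun v (_ : v ∈ ball z δ) => edist (h v) (h z)) w hw) _)

lemma eventually_mem_ball_subset {X D : Set E} [FiniteDimensional ℝ E] (hX : IsCompact X)
    (hD : IsOpen D) (hXD : X ⊆ D) :
    ∃ δ₁ > 0, ∀ δ ≤ δ₁, ∀ z ∈ X, ball z δ ⊆ D := by
  obtain ⟨δ₁, h1, h2⟩ := hX.exists_cthickening_subset_open hD hXD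
  exact ⟨δ₁, h1, fun δ hδ z hz w hw => h2 (mem_cthickening_of_dist_le w z δ₁ X hz
    ((mem_ball.1 hw).le.trans hδ))⟩

lemma UnifVar.comp_le {ι : Type*} {F' : Type*} [PseudoEMetricSpace F'] {g : ι → E → F}
    {g' : ι → E → F'} {X : Set E} (h : UnifVar g X) {L : ℝ≥0∞} (hL : L ≠ ⊤) {δ₁ : ℝ} (hδ₁ : 0 < δ₁)
    (hh : ∀ k, ∀ z ∈ X, ∀ w ∈ ball z δ₁, edist (g' k w) (g' k z) ≤ L * edist (g k w) (g k z)) :
    UnifVar g' X := by
  obtain ⟨⟨m, δ₀, hm, hδ₀, hb⟩, hs⟩ := h
  have key : ∀ k δ, δ ≤ δ₁ → var (g' k) X δ ≤ L ^ (Module.finrank ℝ E + 2) * var (g k) X δ :=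
    fun k δ hδ => var_le_mul fun z hz w hw => hh k z hz w (ball_subset_ball hδ hw)
  refine ⟨⟨L ^ (Module.finrank ℝ E + 2) * m, min δ₀ δ₁,
    ENNReal.mul_ne_top (ENNReal.pow_ne_top hL) hm, lt_min hδ₀ hδ₁, fun k δ h1 h2 => ?_⟩, fun k => ?_⟩
  · exact (key k δ (h2.trans (min_le_right _ _))).trans
      (mul_le_mul_right (hb k δ h1 (h2.trans (min_le_left _ _))) _)
  · refine tendsto_of_tendsto_of_tendsto_of_le_of_le' tendsto_const_nhds
      (by simpa using ENNReal.Tendsto.const_mul (a := L ^ (Module.finrank ℝ E + 2)) (hs k) (Or.inr (ENNReal.pow_ne_top hL)))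
      (Eventually.of_forall fun _ => zero_le) ?_
    filter_upwards [nhdsWithin_le_nhds (Iic_mem_nhds hδ₁)] with δ hδ using key k δ hδ

lemma lowerSemicontinuous_var {K : Type*} [TopologicalSpace K] {g : K → E → F} {X : Set E} {δ : ℝ}
    (hc : ∀ z ∈ X, ∀ w ∈ ball z δ, Continuous fun k => g k w) (hδ : 0 < δ) :
    LowerSemicontinuous fun k => var (g k) X δ := by
  refine lowerSemicontinuous_iSup fun S => lowerSemicontinuous_iSup fun hS =>
    lowerSemicontinuous_iSup fun _ => ?_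
  refine lowerSemicontinuous_sum fun z hz => ?_
  have hosc : LowerSemicontinuous fun k => osc (g k) z δ :=
    lowerSemicontinuous_biSup fun w hw => (Continuous.edist (hc z (hS hz) w hw)
      (hc z (hS hz) z (mem_ball_self hδ))).lowerSemicontinuous
  exact (ENNReal.continuous_pow _).comp_lowerSemicontinuous hosc (fun a b hab => pow_le_pow_left' hab _)

variable [FiniteDimensional ℝ E]
variable {K : Type*} [CommGroup K] [TopologicalSpace K] [IsTopologicalGroup K] [CompactSpace K]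
  [T2Space K]

lemma pow_lintegral_le {α : Type*} [MeasurableSpace α] (ν : Measure α) [IsProbabilityMeasure ν]
    {f : α → ℝ≥0∞} (hf : AEMeasurable f ν) {p : ℕ} (hp : 2 ≤ p) :
    (∫⁻ a, f a ∂ν) ^ p ≤ ∫⁻ a, f a ^ p ∂ν := by
  have hp1 : (1 : ℝ) < p := by exact_mod_cast hp
  have hH := ENNReal.lintegral_mul_le_Lp_mul_Lq ν (Real.HolderConjugate.conjExponent hp1) hf
    (aemeasurable_const (b := (1 : ℝ≥0∞)))
  simp only [Pi.mul_apply, mul_one, ENNReal.one_rpow, lintegral_const, measure_univ,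
    ENNReal.rpow_natCast] at hH
  calc (∫⁻ a, f a ∂ν) ^ p ≤ ((∫⁻ a, f a ^ p ∂ν) ^ (1 / (p : ℝ))) ^ p := by gcongr
    _ = _ := by
      rw [← ENNReal.rpow_natCast, ← ENNReal.rpow_mul, one_div_mul_cancel (by positivity),
        ENNReal.rpow_one]

/-- the mean of a family with bounded, vanishing sums has vanishing sums -/
lemma smallVar_haarMean {G : Type*} [NormedAddCommGroup G] [NormedSpace ℝ G] {g : K → E → G}
    {X D : Set E} (hX : IsCompact X) (hD : IsOpen D) (hXD : X ⊆ D) (h : UnifVar g X)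
    (hc : ∀ w ∈ D, Continuous fun k => g k w) :
    SmallVar (fun w => haarMean fun k => g k w) X := by
  borelize K
  have := isProbabilityMeasure_haarTop (K := K)
  simp only [haarMean_spec]
  set ν : Measure K := Measure.haarMeasure ⊤
  obtain ⟨δ₁, hδ₁, hball⟩ := eventually_mem_ball_subset hX hD hXD
  obtain ⟨⟨m, δ₀, hm, hδ₀, hb⟩, hs⟩ := h
  have hev : ∀ᶠ δ in 𝓝[>] (0 : ℝ), 0 < δ ∧ δ ≤ δ₁ ∧ δ ≤ δ₀ := by
    filter_upwards [self_mem_nhdsWithin, nhdsWithin_le_nhds (Iic_mem_nhds hδ₁),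
      nhdsWithin_le_nhds (Iic_mem_nhds hδ₀)] with δ a b c using ⟨a, b, c⟩
  have hlsc : ∀ δ, 0 < δ → δ ≤ δ₁ → Measurable fun k => var (g k) X δ := fun δ h0 hδ =>
    (lowerSemicontinuous_var (fun z hz w hw => hc w (hball δ hδ z hz hw)) h0).measurable
  have hlim : Tendsto (fun δ => ∫⁻ k, var (g k) X δ ∂ν) (𝓝[>] 0) (𝓝 0) := by
    have := tendsto_lintegral_filter_of_dominated_convergence (μ := ν) (l := 𝓝[>] (0 : ℝ))
      (F := fun δ k => var (g k) X δ) (f := fun _ => 0) (fun _ => m)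
      (hev.mono fun δ hδ => hlsc δ hδ.1 hδ.2.1)
      (hev.mono fun δ hδ => Eventually.of_forall fun k => hb k δ hδ.1 hδ.2.2)
      (by simp [hm]) (Eventually.of_forall hs)
    simpa using this
  refine tendsto_of_tendsto_of_tendsto_of_le_of_le' tendsto_const_nhds hlim
    (Eventually.of_forall fun _ => zero_le) ?_
  filter_upwards [hev] with δ ⟨h0, hδ, _⟩
  refine var_le fun S hS hs => ?_
  have hosc : ∀ z ∈ S, Measurable fun k => osc (g k) z δ := fun z hz =>
    (lowerSemicontinuous_biSup fun w hw => (Continuous.edist (hc w (hball δ hδ z (hS hz) hw))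
      (hc z (hXD (hS hz)))).lowerSemicontinuous).measurable
  calc _ ≤ ∑ z ∈ S, (∫⁻ k, osc (g k) z δ ∂ν) ^ (Module.finrank ℝ E + 2) := by
        refine Finset.sum_le_sum fun z hz => ?_
        gcongr
        refine iSup₂_le fun w hw => ?_
        have hint : ∀ v ∈ D, Integrable (fun k => g k v) ν := fun v hv =>
          (hc v hv).integrable_of_hasCompactSupport (HasCompactSupport.of_compactSpace _)
        rw [edist_eq_enorm_sub, ← integral_sub (hint w (hball δ hδ z (hS hz) hw))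
          (hint z (hXD (hS hz)))]
        refine (enorm_integral_le_lintegral_enorm _).trans (lintegral_mono fun k => ?_)
        rw [← edist_eq_enorm_sub]
        exact le_iSup₂ (f := fun v (_ : v ∈ ball z δ) => edist (g k v) (g k z)) w hw
    _ ≤ ∑ z ∈ S, ∫⁻ k, osc (g k) z δ ^ (Module.finrank ℝ E + 2) ∂ν := Finset.sum_le_sum fun z hz =>
        pow_lintegral_le ν (hosc z hz).aemeasurable (by omega)
    _ = ∫⁻ k, ∑ z ∈ S, osc (g k) z δ ^ (Module.finrank ℝ E + 2) ∂ν :=
        (lintegral_finsetSum _ fun z hz => (hosc z hz).pow_const _).symm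
    _ ≤ _ := lintegral_mono fun k => le_var hS hs

variable [MeasurableSpace E] [BorelSpace E]

lemma exists_separated_net {Y : Set E} (hY : IsCompact Y) {δ : ℝ} (hδ : 0 < δ) :
    ∃ S : Finset E, (S : Set E) ⊆ Y ∧ ((S : Set E).Pairwise fun a b => δ ≤ dist a b) ∧
      Y ⊆ ⋃ z ∈ S, ball z δ := by
  classical
  obtain ⟨T, -, hT, hcov⟩ := finite_cover_balls_of_compact hY (half_pos hδ)
  let P : ℕ → Prop := fun m => ∃ S : Finset E, (S : Set E) ⊆ Y ∧
    ((S : Set E).Pairwise fun a b => δ ≤ dist a b) ∧ S.card = m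
  have hbd : ∀ S : Finset E, (S : Set E) ⊆ Y →
      ((S : Set E).Pairwise fun a b => δ ≤ dist a b) → S.card ≤ hT.toFinset.card := by
    intro S hS hs
    choose! t ht hst using fun z (hz : z ∈ S) => mem_iUnion₂.1 (hcov (hS hz))
    refine Finset.card_le_card_of_injOn t (fun z hz => hT.mem_toFinset.2 (ht z hz))
      fun a ha b hb hab => ?_
    by_contra hne
    have h1 := mem_ball.1 (hst a ha)
    have h2 := mem_ball.1 (hst b hb)
    rw [hab] at h1
    linarith [hs ha hb hne, dist_triangle_right a b (t b)]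
  obtain ⟨m, hm⟩ : ∃ m, Nat.findGreatest P hT.toFinset.card = m := ⟨_, rfl⟩
  obtain ⟨S, hS, hs, hcard⟩ : P m := hm ▸ Nat.findGreatest_spec (P := P) (Nat.zero_le _)
    ⟨∅, by simp, by simp, rfl⟩
  refine ⟨S, hS, hs, fun y hy => ?_⟩
  by_contra hcon
  simp only [mem_iUnion, mem_ball, not_exists, not_lt] at hcon
  have hyS : y ∉ S := fun h => by simpa using (hcon y h).trans_lt' hδ
  have h1 : ((insert y S : Finset E) : Set E) ⊆ Y := by
    rw [Finset.coe_insert]; exact insert_subset hy hS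
  have h2 : ((insert y S : Finset E) : Set E).Pairwise fun a b => δ ≤ dist a b := by
    rw [Finset.coe_insert]
    exact hs.insert fun z hz _ => ⟨hcon z hz, by rw [dist_comm]; exact hcon z hz⟩
  have := Nat.le_findGreatest (P := P) (hbd _ h1 h2) ⟨_, h1, h2, rfl⟩
  rw [Finset.card_insert_of_notMem hyS, hm, hcard] at this
  omega

theorem badSet_null (μ : Measure E) [μ.IsAddHaarMeasure] {q : ℕ} {A : E → E} {s : Fin q → E → ℂ}
    {X : Set E} (hX : IsCompact X) (hA : SmallVar A X) (hs : ∀ j, SmallVar (s j) X)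
    (hsc : ∀ j, ContinuousOn (s j) X)
    (hne : ∀ z ∈ X, ∃ i, s i z ≠ 0) : (μ.prod volume) (badSet A s X) = 0 := by
  rcases q with - | q
  · have : X = ∅ := eq_empty_of_forall_notMem fun z hz => (hne z hz).choose.elim0
    simp [badSet, this]
  set n := Module.finrank ℝ E
  let Y : Fin (q + 1) → ℕ → Set E := fun i k => {z ∈ X | ((k : ℝ) + 1)⁻¹ ≤ ‖s i z‖}
  let B : Fin (q + 1) → ℕ → Set (E × (Fin (q + 1) → ℂ)) := fun i k =>
    {P | ‖P.2‖ ≤ k} ∩ badSet A s (Y i k)
  have hcov : badSet A s X ⊆ ⋃ (i) (k), B i k := by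
    rintro P ⟨z, hz, h1, h2⟩
    obtain ⟨i, hi⟩ := hne z hz
    obtain ⟨k, hk⟩ := exists_nat_gt (max ‖P.2‖ ‖s i z‖⁻¹)
    have hk' := max_lt_iff.1 hk
    refine mem_iUnion₂.2 ⟨i, k, hk'.1.le, z, ⟨hz, ?_⟩, h1, h2⟩
    rw [inv_le_comm₀ (by positivity) (norm_pos_iff.2 hi)]
    linarith [hk'.2]
  refine measure_mono_null hcov (measure_iUnion_null fun i => measure_iUnion_null fun k => ?_)
  have hYc : IsCompact (Y i k) := hX.of_isClosed_subset
    ((hsc i).norm.preimage_isClosed_of_isClosed hX.isClosed isClosed_Ici) fun z hz => hz.1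
  set c₁ := μ (closedBall (0 : E) 1)
  have hc₁' : c₁ ≠ ⊤ := measure_closedBall_lt_top.ne
  set C : ℝ := ((q + 1 : ℕ) : ℝ) * k * ((k : ℝ) + 1)
  set C' : ℝ≥0∞ := c₁ * (ENNReal.ofReal C ^ 2 * NNReal.pi * volume (closedBall (0 : Fin q → ℂ) k))
  have hC' : C' ≠ ⊤ := ENNReal.mul_ne_top hc₁' (ENNReal.mul_ne_top (ENNReal.mul_ne_top
    (ENNReal.pow_ne_top ENNReal.ofReal_ne_top) ENNReal.coe_ne_top) measure_closedBall_lt_top.ne)
  set V : ℝ → ℝ≥0∞ := fun δ => var A X δ + ∑ j, var (s j) X δ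
  have hV : Tendsto V (𝓝[>] 0) (𝓝 0) := by
    have := hA.add (tendsto_finsetSum Finset.univ fun j _ => hs j)
    simpa [V] using this
  have key : ∀ δ : ℝ, 0 < δ → V δ < ⊤ → (μ.prod volume) (B i k) ≤ C' * V δ := by
    intro δ hδ hVt
    obtain ⟨S, hSY, hSs, hScov⟩ := exists_separated_net hYc hδ
    have hSX : (S : Set E) ⊆ X := hSY.trans fun z hz => hz.1
    let d : E → ℝ≥0∞ := fun z => osc A z δ ⊔ Finset.univ.sup fun j => osc (s j) z δ
    have hd : ∀ z, d z ^ (n + 2) ≤ osc A z δ ^ (n + 2) + ∑ j, osc (s j) z δ ^ (n + 2) := by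
      intro z
      obtain h | h := le_total (Finset.univ.sup fun j => osc (s j) z δ) (osc A z δ)
      · exact le_add_right (le_of_eq (by simp [d, sup_of_le_left h]))
      · obtain ⟨j, -, hj⟩ := Finset.exists_mem_eq_sup Finset.univ Finset.univ_nonempty
          fun j => osc (s j) z δ
        refine le_add_left ?_
        rw [show d z = osc (s j) z δ by simp [d, sup_of_le_right h, hj]]
        exact Finset.single_le_sum (f := fun j => osc (s j) z δ ^ (n + 2)) (fun _ _ => zero_le)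
          (Finset.mem_univ j)
    have hdV : ∑ z ∈ S, d z ^ (n + 2) ≤ V δ := by
      refine (Finset.sum_le_sum fun z _ => hd z).trans ?_
      rw [Finset.sum_add_distrib, Finset.sum_comm]
      exact add_le_add (le_var hSX hSs) (Finset.sum_le_sum fun j _ => le_var hSX hSs)
    have hdt : ∀ z ∈ S, d z ≠ ⊤ := fun z hz hzt => by
      have := ((Finset.single_le_sum (f := fun z => d z ^ (n + 2)) (fun _ _ => zero_le)
        hz).trans hdV).trans_lt hVt
      simp [hzt] at this
    have hsub : B i k ⊆ ⋃ z ∈ S, closedBall (A z) (d z).toReal ×ˢ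
        {v : Fin (q + 1) → ℂ | ‖v‖ ≤ k ∧
          ‖∑ j, v j * s j z‖ ≤ ((q + 1 : ℕ) : ℝ) * k * (d z).toReal} := by
      rintro P ⟨hPk, z, hz, h1, h2⟩
      obtain ⟨c, hc, hzc⟩ := mem_iUnion₂.1 (hScov hz)
      refine mem_biUnion hc ⟨mem_closedBall.2 ?_, hPk, ?_⟩
      · rw [← h1, dist_edist]
        exact ENNReal.toReal_mono (hdt c hc) (le_sup_of_le_left (le_iSup₂
          (f := fun v (_ : v ∈ ball c δ) => edist (A v) (A c)) z hzc))
      · have e : ∑ j, P.2 j * s j c = ∑ j, P.2 j * (s j c - s j z) := by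
          simp only [mul_sub, Finset.sum_sub_distrib, h2, sub_zero]
        rw [e]
        refine (norm_sum_le _ _).trans
          ((Finset.sum_le_card_nsmul _ _ ((k : ℝ) * (d c).toReal) fun j _ => ?_).trans_eq ?_)
        · rw [norm_mul, norm_sub_rev]
          refine mul_le_mul ((norm_le_pi_norm _ j).trans hPk) ?_ (norm_nonneg _) (Nat.cast_nonneg _)
          rw [← dist_eq_norm, dist_edist]
          exact ENNReal.toReal_mono (hdt c hc) (le_sup_of_le_right
            ((le_iSup₂ (f := fun v (_ : v ∈ ball c δ) => edist (s j v) (s j c)) z hzc).trans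
              (Finset.le_sup (f := fun j => osc (s j) c δ) (Finset.mem_univ j))))
        · rw [Finset.card_univ, Fintype.card_fin, nsmul_eq_mul]; ring
    have hball : ∀ z ∈ S, (μ.prod volume) (closedBall (A z) (d z).toReal ×ˢ
        {v : Fin (q + 1) → ℂ | ‖v‖ ≤ k ∧
          ‖∑ j, v j * s j z‖ ≤ ((q + 1 : ℕ) : ℝ) * k * (d z).toReal})
        ≤ C' * d z ^ (n + 2) := by
      intro z hz
      have hr : (0 : ℝ) ≤ (d z).toReal := ENNReal.toReal_nonneg
      have hsi : ((k : ℝ) + 1)⁻¹ ≤ ‖s i z‖ := (hSY hz).2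
      have hsi0 : 0 < ‖s i z‖ := lt_of_lt_of_le (by positivity) hsi
      rw [Measure.prod_prod]
      refine (mul_le_mul_right (Frac.volume_strip (fun j => s j z) i
        (norm_pos_iff.1 hsi0) (k : ℝ) _) _).trans ?_
      rw [Measure.addHaar_closedBall' μ _ hr]
      have h1 : ((q + 1 : ℕ) : ℝ) * k * (d z).toReal / ‖s i z‖ ≤ C * (d z).toReal := by
        rw [div_le_iff₀ hsi0]
        have : 1 ≤ ((k : ℝ) + 1) * ‖s i z‖ := by
          rwa [inv_le_iff_one_le_mul₀' (by positivity)] at hsi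
        calc ((q + 1 : ℕ) : ℝ) * k * (d z).toReal
            ≤ ((q + 1 : ℕ) : ℝ) * k * (d z).toReal * (((k : ℝ) + 1) * ‖s i z‖) :=
              le_mul_of_one_le_right (by positivity) this
          _ = _ := by simp only [C]; ring
      calc _ ≤ ENNReal.ofReal ((d z).toReal ^ n) * c₁ *
            (ENNReal.ofReal (C * (d z).toReal) ^ 2 * NNReal.pi
              * volume (closedBall (0 : Fin q → ℂ) k)) := by gcongr
        _ = _ := by
            rw [ENNReal.ofReal_pow hr, ENNReal.ofReal_mul (show 0 ≤ C by positivity),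
              ENNReal.ofReal_toReal (hdt z hz)]
            simp only [C', pow_add]
            ring
    calc (μ.prod volume) (B i k) ≤ _ := measure_mono hsub
      _ ≤ ∑ z ∈ S, _ := measure_biUnion_finset_le _ _
      _ ≤ ∑ z ∈ S, C' * d z ^ (n + 2) := Finset.sum_le_sum hball
      _ = C' * ∑ z ∈ S, d z ^ (n + 2) := (Finset.mul_sum ..).symm
      _ ≤ _ := mul_le_mul_right hdV _
  have hlim : Tendsto (fun δ => C' * V δ) (𝓝[>] 0) (𝓝 0) := by
    simpa using ENNReal.Tendsto.const_mul hV (Or.inr hC')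
  exact nonpos_iff_eq_zero.1 (ge_of_tendsto hlim
    (by filter_upwards [self_mem_nhdsWithin, hV.eventually (gt_mem_nhds ENNReal.zero_lt_top)]
      with δ h1 h2 using key δ h1 h2))

end

end Vale.Agent.P228.Var
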