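import Vale.Agent.P228.Frac.Touch
import Vale.Agent.P228.Var.Osc

/-!
A generic equivariant function, Newman's lemma and the touching lemma for tame local actions.
-/

namespace Vale.Agent.P228.Var

open MeasureTheory Metric Set Function Filter
open scoped Topology NNReal ENNReal RealInnerProductSpace
open Frac hiding Tame badSet_null exists_good fixed_of_small not_touching

noncomputable section

variable {E : Type*} [NormedAddCommGroup E] [InnerProductSpace ℝ E] [FiniteDimensional ℝ E]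
  [MeasurableSpace E] [BorelSpace E]
variable {K : Type*} [CommGroup K] [TopologicalSpace K] [IsTopologicalGroup K] [CompactSpace K]
  [T2Space K] {f : K → E → E} {c : E} {R : ℝ}

/-- `f` is tame on `S`: after a change of parameters it has uniformly bounded, vanishing sums
on countably many compact pieces. -/
def Tame (f : K → E → E) (c : E) (R : ℝ) (S : Set E) : Prop :=
  ∃ θ : E → E, ∃ D : Set E, IsOpen D ∧ ContinuousOn θ D ∧ MapsTo θ D (closedBall c R) ∧
    S ⊆ θ '' D ∧ ∀ C ⊆ D, IsCompact C → UnifVar (fun k w => f k (θ w)) C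

omit [FiniteDimensional ℝ E] [IsTopologicalGroup K] [CompactSpace K] [T2Space K]
  [MeasurableSpace E] [BorelSpace E] in
lemma Tame.mono {S T : Set E}
    (h : Tame f c R S) (hT : T ⊆ S) : Tame f c R T := by
  obtain ⟨θ, D, h1, h2, h3, h4, h5⟩ := h
  exact ⟨θ, D, h1, h2, h3, hT.trans h4, h5⟩

/-- a value in `U` and an equivariant function which does not vanish on its fibre -/
theorem exists_good (hf : IsLocalAction f c R) {p : ℕ} {χ : K → ℂ} (hχ : Continuous χ)
    (hp : 0 < p) (hχp : ∀ k, χ k ^ p = 1) (hχ1 : χ 1 = 1) (hχm : ∀ k l, χ (k * l) = χ k * χ l)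
    {ψ : E → E} (hψ : Continuous ψ) (hψL : ∀ r, ∃ L, LipschitzOnWith L ψ (closedBall c r))
    {R' : ℝ} (hR' : R' ≤ R) (htame : Tame f c R (closedBall c R')) {U : Set E} (hU : IsOpen U)
    (hUne : U.Nonempty) (hUb : Bornology.IsBounded U)
    (hsep : ∀ x ∈ closedBall c R', avgMap f ψ x ∈ closure U →
      ∀ k l, f k x = f l x → χ k = χ l) :
    ∃ y ∈ U, ∃ σ : E → ℂ, ContinuousOn σ (closedBall c R) ∧
      (∀ l, ∀ x ∈ closedBall c R, f l x ∈ closedBall c R → σ (f l x) = χ l * σ x) ∧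
      ∀ x ∈ closedBall c R', avgMap f ψ x = y → σ x ≠ 0 := by
  classical
  have hχ0 : ∀ k, χ k ≠ 0 := fun k h => by simpa [h, hp.ne'] using hχp k
  have hsub : closedBall c R' ⊆ closedBall c R := closedBall_subset_closedBall hR'
  set A := avgMap f ψ
  set X := closedBall c R' ∩ A ⁻¹' closure U
  have hX : IsCompact X := (isCompact_closedBall c R').of_isClosed_subset
    (((continuousOn_avgMap hf hψ).mono hsub).preimage_isClosed_of_isClosed isClosed_closedBall
      isClosed_closure) inter_subset_left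
  choose! φ hφL hφne using fun x (hx : x ∈ X) =>
    exists_avgFun_ne_zero hf hχ hp hχp hχ1 (hsub hx.1) (hsep x hx.1 hx.2)
  have hφc : ∀ x ∈ X, Continuous (φ x) := fun x hx => (hφL x hx).choose_spec.continuous
  obtain ⟨t, ht, hcov⟩ := hX.elim_nhdsWithin_subcover
    (fun x => avgFun f χ (φ x) ⁻¹' {0}ᶜ) fun x hx =>
      (((continuousOn_avgFun hf hχ hχ0 (hφc x hx)).mono (inter_subset_left.trans hsub)) x hx)
        (isOpen_compl_singleton.mem_nhds (hφne x hx))
  let q := t.card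
  let e := t.equivFin.symm
  let s : Fin q → E → ℂ := fun j => avgFun f χ (φ (e j : E))
  have he : ∀ j, (e j : E) ∈ X := fun j => ht _ (e j).2
  have hne : ∀ x ∈ X, ∃ j, s j x ≠ 0 := fun x hx => by
    obtain ⟨a, ha, hax⟩ := mem_iUnion₂.1 (hcov hx)
    refine ⟨t.equivFin ⟨a, ha⟩, ?_⟩
    simpa [s, e] using hax
  obtain ⟨θ, D, hDo, hθc, hθm, hθs, hunif⟩ := htame
  obtain ⟨r, hr⟩ := exists_orbit_ball hf
  have : LocallyCompactSpace D := hDo.locallyCompactSpace
  let Cj : ℕ → Set E := fun i => Subtype.val '' compactCovering D i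
  have hCc : ∀ i, IsCompact (Cj i) := fun i =>
    (isCompact_compactCovering D i).image continuous_subtype_val
  have hCD : ∀ i, Cj i ⊆ D := fun i => by rintro _ ⟨z, -, rfl⟩; exact z.2
  have hAo : ∀ i, SmallVar (fun w => A (θ w)) (Cj i) := fun i => by
    obtain ⟨L, hL⟩ := hψL r
    obtain ⟨δ₁, hδ₁, hball⟩ := eventually_mem_ball_subset (hCc i) hDo (hCD i)
    refine smallVar_haarMean (hCc i) hDo (hCD i)
      ((hunif _ (hCD i) (hCc i)).comp_le (L := L) ENNReal.coe_ne_top hδ₁ fun k z hz w hw => ?_)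
      fun w hw => hψ.comp (hf.cont_left (hθm hw))
    exact hL (hr k _ (hθm (hball δ₁ le_rfl z hz hw))) (hr k _ (hθm (hCD i hz)))
  have hso : ∀ i j, SmallVar (fun w => s j (θ w)) (Cj i) := fun i j => by
    obtain ⟨L, hL⟩ := hφL _ (he j)
    refine smallVar_haarMean (hCc i) hDo (hCD i)
      ((hunif _ (hCD i) (hCc i)).comp_le (L := L) ENNReal.coe_ne_top one_pos
        fun k z _ w _ => ?_)
      fun w hw => (hχ.inv₀ hχ0).mul (hL.continuous.comp (hf.cont_left (hθm hw)))
    rw [edist_eq_enorm_sub, ← mul_sub, enorm_mul, ← edist_eq_enorm_sub]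
    have hn : ‖(χ k)⁻¹‖ₑ = 1 := by
      rw [← ofReal_norm, norm_inv, Complex.norm_eq_one_of_pow_eq_one (hχp k) hp.ne',
        inv_one, ENNReal.ofReal_one]
    rw [hn, one_mul]
    exact hL _ _
  have hsc : ∀ i j, ContinuousOn (fun w => s j (θ w)) (Cj i) := fun i j =>
    ((continuousOn_avgFun hf hχ hχ0 (hφc _ (he j))).comp hθc hθm).mono (hCD i)
  have hXi : ∀ i, IsCompact (Cj i ∩ θ ⁻¹' X) := fun i => (hCc i).of_isClosed_subset
    ((hθc.mono (hCD i)).preimage_isClosed_of_isClosed (hCc i).isClosed hX.isClosed)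
    inter_subset_left
  let μ : Measure E := Measure.addHaar
  have hnull : (μ.prod volume)
      (⋃ i, badSet (fun w => A (θ w)) (fun j w => s j (θ w)) (Cj i ∩ θ ⁻¹' X)) = 0 :=
    measure_iUnion_null fun i => badSet_null μ (hXi i) ((hAo i).mono inter_subset_left)
      (fun j => (hso i j).mono inter_subset_left) (fun j => (hsc i j).mono inter_subset_left)
      fun z hz => hne (θ z) hz.2
  obtain ⟨P, hP, hPgood⟩ : ∃ P ∈ U ×ˢ (univ : Set (Fin q → ℂ)),
      P ∉ ⋃ i, badSet (fun w => A (θ w)) (fun j w => s j (θ w)) (Cj i ∩ θ ⁻¹' X) := by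
    by_contra h
    push Not at h
    have h0 := measure_mono_null h hnull
    rw [Measure.prod_prod] at h0
    rcases mul_eq_zero.1 h0 with h1 | h1
    · exact (hU.measure_pos μ hUne).ne' h1
    · exact isOpen_univ.measure_ne_zero volume univ_nonempty h1
  refine ⟨P.1, hP.1, fun x => ∑ j, P.2 j * s j x, ?_, ?_, ?_⟩
  · exact continuousOn_finsetSum _ fun j _ =>
      continuousOn_const.mul (continuousOn_avgFun hf hχ hχ0 (hφc _ (he j)))
  · intro l x hx hlx
    simp only [Finset.mul_sum, s, avgFun_equivariant hf hχ0 hχm _ l hx hlx]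
    exact Finset.sum_congr rfl fun j _ => by ring
  · intro x hx hAx h0
    have hxX : x ∈ X := ⟨hx, by rw [mem_preimage, hAx]; exact subset_closure hP.1⟩
    obtain ⟨w, hw, rfl⟩ := hθs hx
    obtain ⟨i, hi⟩ := mem_iUnion.1 ((iUnion_compactCovering D).symm ▸ mem_univ (⟨w, hw⟩ : D))
    exact hPgood (mem_iUnion.2 ⟨i, w, ⟨⟨_, hi, rfl⟩, hxX⟩, hAx, h0⟩)

section Newman

/-- Newman's lemma -/
theorem fixed_of_small {δ : ℝ} (hf : IsLocalAction f c R) {p : ℕ}
    {h : K} (hpp : p.Prime) (C : Procyclic K p h) (hR : 0 < R)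
    (hδ : ∀ k, ∀ x ∈ closedBall c R, dist (f k x) x ≤ δ) (hδR : 64 * δ ≤ R)
    (htame : Tame f c R (closedBall c (15 * R / 16))) :
    ∀ x ∈ ball c (R / 2), ∀ k, f k x = x := by
  by_contra hcon
  push Not at hcon
  obtain ⟨a, ha, k₀, hk₀⟩ := hcon
  have hδ0 : 0 ≤ δ := dist_nonneg.trans (hδ 1 c (mem_closedBall_self hR.le))
  set R' := 15 * R / 16 with hR'
  have hR'R : R' ≤ R := by rw [hR']; linarith
  set F := {x ∈ closedBall c R | ∀ k, f k x = x}
  have hFc : IsClosed F := by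
    have : F = ⋂ k, closedBall c R ∩ (fun x => f k x - x) ⁻¹' {0} := by
      ext x; simp [F, sub_eq_zero, forall_and]
    rw [this]
    exact isClosed_iInter fun k => ((hf.cont_right k).sub
      continuousOn_id).preimage_isClosed_of_isClosed isClosed_closedBall isClosed_singleton
  obtain ⟨ε, hε, hεsub⟩ := Metric.nhds_basis_closedBall.mem_iff.1
    ((isOpen_ball.sdiff hFc).mem_nhds ⟨ha, fun h => hk₀ (h.2 k₀)⟩)
  set A := avgMap f id
  have hA := continuousOn_avgMap hf continuous_id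
  have hAd : ∀ x ∈ closedBall c R, dist (A x) x ≤ δ := fun x hx =>
    avgMap_mem hf continuous_id hx (convex_closedBall x δ) isClosed_closedBall fun k => hδ k x hx
  have horb : ∀ x ∈ closedBall c R', ∀ k, f k x ∈ closedBall c R := fun x hx k => mem_closedBall.2 (by
    linarith [dist_triangle (f k x) x c, hδ k x (closedBall_subset_closedBall hR'R hx),
      mem_closedBall.1 hx])
  obtain ⟨y, hy, σ, hσ, hσeq, hσne⟩ := exists_good hf C.cont hpp.pos C.pow_p C.map_one C.map_mul
    continuous_id (fun r => ⟨1, LipschitzWith.id.lipschitzOnWith⟩) hR'R htame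
    (U := ball a ε) isOpen_ball ⟨a, mem_ball_self hε⟩ isBounded_ball
    (fun x hx hAx k l => sep_of_moved hf C (closedBall_subset_closedBall hR'R hx) (horb x hx) (by
      by_contra hfix
      push Not at hfix
      rw [avgMap_fixed hfix] at hAx
      exact (hεsub (closure_ball_subset_closedBall hAx)).2
        ⟨closedBall_subset_closedBall hR'R hx, hfix⟩))
  have hyc : dist y c < R / 2 := mem_ball.1 (hεsub (ball_subset_closedBall hy)).1
  -- the lower bound of the pair on the compact domain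
  have hsub := closedBall_subset_closedBall (x := c) hR'R
  let pair : E → E × ℂ := fun z => (A z - y, σ z)
  have hpc : ContinuousOn pair (closedBall c R) := (hA.sub continuousOn_const).prodMk hσ
  obtain ⟨μ, hμ, hμle⟩ := exists_min_norm (isCompact_closedBall c R') (hpc.mono hsub)
    fun z hz h0 => hσne z hz (sub_eq_zero.1 (congrArg Prod.fst h0)) (congrArg Prod.snd h0)
  obtain ⟨δ₁, hδ₁, huc⟩ := Metric.uniformContinuousOn_iff.1
    ((isCompact_closedBall c R).uniformContinuousOn_of_continuous hpc) μ hμ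
  obtain ⟨b, hb⟩ := C.pow_small _ (eventually_disp hf hδ₁)
  have hN : p ^ b * p = p ^ (b + 1) := (pow_succ p b).symm
  set R₀ := 3 * R / 4 with hR₀
  have hB : ∀ x ∈ closedBall (0 : E) R₀, c + x ∈ closedBall c R := fun x hx => by
    rw [mem_closedBall, dist_eq_norm, add_sub_cancel_left]
    linarith [mem_closedBall_zero_iff.1 hx, hR₀]
  set H : E → ℝ → E := fun x s => (1 - s) • (c + x) + s • f h (c + x)
  have hHd : ∀ x ∈ closedBall (0 : E) R₀, ∀ s ∈ Icc (0 : ℝ) 1,
      dist (H x s) (c + x) ≤ δ := fun x hx s hs =>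
    mem_closedBall.1 ((convex_closedBall (c + x) δ) (mem_closedBall_self hδ0)
      (mem_closedBall.2 (hδ h _ (hB x hx))) (by linarith [hs.2]) hs.1 (by ring))
  have hxc : ∀ {x z : E}, x ∈ closedBall (0 : E) R₀ → ∀ {e : ℝ}, dist z (c + x) ≤ e →
      dist z c ≤ R₀ + e := by
    intro x z hx e he
    have : dist (c + x) c ≤ R₀ := by
      rw [dist_eq_norm, add_sub_cancel_left]; exact mem_closedBall_zero_iff.1 hx
    linarith [dist_triangle z (c + x) c]
  set P := pathP (fun i => f (h ^ i)) H (fun x => c + x) (p ^ b * p)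
  have hHR : ∀ x ∈ closedBall (0 : E) R₀, ∀ s ∈ Icc (0 : ℝ) 1, H x s ∈ closedBall c R :=
    fun x hx s hs => mem_closedBall.2 (by linarith [hxc hx (hHd x hx s hs), hR₀])
  have hfH : ∀ x ∈ closedBall (0 : E) R₀, ∀ s ∈ Icc (0 : ℝ) 1, ∀ k,
      dist (f k (H x s)) (c + x) ≤ 2 * δ := fun x hx s hs k => by
    linarith [dist_triangle (f k (H x s)) (H x s) (c + x), hδ k _ (hHR x hx s hs), hHd x hx s hs]
  have hPd : ∀ x ∈ closedBall (0 : E) R₀, ∀ t ∈ Icc (0 : ℝ) 1,
      dist (P x t) (c + x) ≤ 2 * δ := by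
    intro x hx t ht
    obtain ⟨i, s, hs, he⟩ := exists_floor (N := p ^ b * p) ht
    have hH1 : ∀ j, j < p ^ b * p → f (h ^ j) (H x 1) = f (h ^ (j + 1)) (c + x) := fun j _ => by
      have h1 : H x 1 = f h (c + x) := by simp [H]
      have h2 := hHR x hx 1 (right_mem_Icc.2 zero_le_one)
      rw [h1] at h2 ⊢
      rw [← hf.mul _ h _ (hB x hx) h2, ← pow_succ]
    simp only [P]
    rw [pathP_eq (F := fun i => f (h ^ i)) (by simp [hf.one _ (hB x hx)]) (by simp [H]) hH1 ht.2
      hs he]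
    exact hfH x hx s hs _
  have hHc : ContinuousOn (uncurry H) (closedBall 0 R₀ ×ˢ Icc 0 1) := by
    have h1 : ContinuousOn (fun q : E × ℝ => f h (c + q.1)) (closedBall 0 R₀ ×ˢ Icc 0 1) :=
      (hf.cont_right h).comp (continuous_const.add continuous_fst).continuousOn
        fun q hq => hB q.1 hq.1
    exact (((continuous_const.sub continuous_snd).continuousOn.smul
      (continuous_const.add continuous_fst).continuousOn).add (continuousOn_snd.smul h1))
  have hPc : ContinuousOn (uncurry P) (closedBall 0 R₀ ×ˢ Icc 0 1) := by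
    simp only [P, pathP, uncurry_def]
    refine (continuous_const.add continuous_fst).continuousOn.add
      (continuousOn_finsetSum _ fun i _ => ?_)
    refine ((hf.cont_right (h ^ i)).comp ?_ fun q hq => hHR q.1 hq.1 _ (clamp_mem _)).sub
      ((hf.cont_right (h ^ i)).comp (continuous_const.add continuous_fst).continuousOn
        fun q hq => hB q.1 hq.1)
    exact hHc.comp (continuous_fst.prodMk (continuous_clamp.comp (by fun_prop))).continuousOn
      fun q hq => ⟨hq.1, clamp_mem _⟩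
  -- the homotopy
  let w : E → E := fun x => c + x - f (h ^ (p ^ b * p)) (c + x)
  let Z : ℝ × E → ℝ → E := fun q t => (1 - min (2 * q.1) 1) • (c + q.2)
    + min (2 * q.1) 1 • (P q.2 t + t • w q.2)
  let Q : ℝ × E → ℝ → E × ℂ := fun q t =>
    (1 - max (2 * q.1 - 1) 0) • pair (Z q t) + max (2 * q.1 - 1) 0 • pair (P q.2 t)
  have hw : ∀ x ∈ closedBall (0 : E) R₀, ‖w x‖ ≤ δ ∧ ‖w x‖ < δ₁ := fun x hx => by
    simp only [w]
    rw [← dist_eq_norm, dist_comm]
    exact ⟨hδ _ _ (hB x hx), by rw [hN]; exact hb _ (hB x hx)⟩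
  have hτ : ∀ τ ∈ Icc (0 : ℝ) 1, min (2 * τ) 1 ∈ Icc (0 : ℝ) 1 ∧
      max (2 * τ - 1) 0 ∈ Icc (0 : ℝ) 1 := fun τ hτ =>
    ⟨⟨le_min (by linarith [hτ.1]) zero_le_one, min_le_right _ _⟩,
      ⟨le_max_right _ _, max_le (by linarith [hτ.2]) zero_le_one⟩⟩
  have hPw : ∀ x ∈ closedBall (0 : E) R₀, ∀ t ∈ Icc (0 : ℝ) 1,
      dist (P x t + t • w x) (c + x) ≤ 3 * δ := fun x hx t ht => by
    have h2 : ‖t • w x‖ ≤ δ := by
      rw [norm_smul, Real.norm_eq_abs, abs_of_nonneg ht.1]
      exact (mul_le_of_le_one_left (norm_nonneg _) ht.2).trans (hw x hx).1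
    have h3 := hPd x hx t ht
    rw [dist_eq_norm] at h3 ⊢
    calc ‖P x t + t • w x - (c + x)‖ = ‖(P x t - (c + x)) + t • w x‖ := by congr 1; abel
      _ ≤ 2 * δ + δ := (norm_add_le _ _).trans (add_le_add h3 h2)
      _ = 3 * δ := by ring
  have hZ : ∀ q ∈ Icc (0 : ℝ) 1 ×ˢ closedBall (0 : E) R₀, ∀ t ∈ Icc (0 : ℝ) 1,
      dist (Z q t) (c + q.2) ≤ 3 * δ := fun q hq t ht => mem_closedBall.1
    ((convex_closedBall (c + q.2) (3 * δ)) (mem_closedBall_self (by linarith))
      (mem_closedBall.2 (hPw q.2 hq.2 t ht)) (by linarith [(hτ _ hq.1).1.2]) (hτ _ hq.1).1.1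
      (by ring))
  have hmem' : ∀ {x z : E}, x ∈ closedBall (0 : E) R₀ → dist z (c + x) ≤ 3 * δ →
      z ∈ closedBall c R' := fun hx hz => mem_closedBall.2 (by
    linarith [hxc hx hz, hR₀, hR'])
  have hZm : ∀ q ∈ Icc (0 : ℝ) 1 ×ˢ closedBall (0 : E) R₀, ∀ t ∈ Icc (0 : ℝ) 1,
      Z q t ∈ closedBall c R' := fun q hq t ht => hmem' hq.2 (hZ q hq t ht)
  have hPm : ∀ q ∈ Icc (0 : ℝ) 1 ×ˢ closedBall (0 : E) R₀, ∀ t ∈ Icc (0 : ℝ) 1,
      P q.2 t ∈ closedBall c R' := fun q hq t ht =>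
    hmem' hq.2 (by linarith [hPd q.2 hq.2 t ht])
  refine no_config hf hpp C (m := p ^ b) (pow_pos hpp.pos b) (R₀ := R₀) (by rw [hR₀]; linarith)
    hB hA hσ (fun l x hx hlx => avgMap_invariant hf id l hx hlx) hσeq (y := y) (fun x hx => ?_)
    (ψ := fun x => c + x - y) (x₀ := y - c) ?_ ?_ (H := H) hHc (fun x hx => by simp [H])
    (fun x hx => by simp [H]) (fun x hx s hs => ⟨hHR x hx s hs, fun i _ => ?_⟩)
    (Q := Q) ?_ ?_ ?_ ?_ ?_ ?_
  · exact hσne _ (hmem' hx (by simp; linarith))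
  · refine ⟨(continuous_const.add continuous_id |>.sub continuous_const).continuousOn,
      fun x => ?_, fun x _ => ⟨ContinuousLinearEquiv.refl ℝ E,
        ((hasFDerivAt_id x).const_add c).sub_const y⟩⟩
    simp only [Finset.mem_singleton, mem_closedBall_zero_iff, sub_eq_zero, eq_sub_iff_add_eq']
    refine ⟨fun h => ⟨?_, h⟩, fun h => h.2⟩
    rw [show x = y - c by rw [← h]; abel, ← dist_eq_norm]; linarith [hR₀]
  · intro x hx t ht h0
    have hxB := hB x (sphere_subset_closedBall hx)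
    have h1 : dist ((1 - t) • (A (c + x) - y) + t • (c + x - y)) (c + x - y) ≤ δ :=
      mem_closedBall.1 ((convex_closedBall (c + x - y) δ)
        (mem_closedBall.2 (by rw [dist_sub_right]; exact hAd _ hxB)) (mem_closedBall_self hδ0)
        (by linarith [ht.2]) ht.1 (by ring))
    rw [h0, dist_zero_left, add_comm c, add_sub_assoc] at h1
    have h2 : R₀ ≤ ‖x + (c - y)‖ + R / 2 := by
      have := norm_sub_le (x + (c - y)) (c - y)
      rw [add_sub_cancel_right, mem_sphere_zero_iff_norm.1 hx, ← dist_eq_norm, dist_comm] at this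
      linarith
    linarith [hR₀]
  · exact mem_closedBall.2 (by linarith [hxc hx (hfH x hx s hs (h ^ i)), hR₀])
  · have hfst : ContinuousOn (fun q : (ℝ × E) × ℝ => P q.1.2 q.2)
        ((Icc 0 1 ×ˢ closedBall (0 : E) R₀) ×ˢ Icc 0 1) :=
      hPc.comp (f := fun q : (ℝ × E) × ℝ => (q.1.2, q.2))
        ((continuous_snd.comp continuous_fst).prodMk continuous_snd).continuousOn
        fun q hq => ⟨hq.1.2, hq.2⟩
    have hwc : ContinuousOn (fun q : (ℝ × E) × ℝ => w q.1.2)
        ((Icc 0 1 ×ˢ closedBall (0 : E) R₀) ×ˢ Icc 0 1) :=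
      (continuous_const.add (continuous_snd.comp continuous_fst)).continuousOn.sub
        ((hf.cont_right _).comp
          (continuous_const.add (continuous_snd.comp continuous_fst)).continuousOn
          fun q hq => hB _ hq.1.2)
    have hmin : ContinuousOn (fun q : (ℝ × E) × ℝ => min (2 * q.1.1) 1)
        ((Icc 0 1 ×ˢ closedBall (0 : E) R₀) ×ˢ Icc 0 1) := Continuous.continuousOn (by fun_prop)
    have hmax : ContinuousOn (fun q : (ℝ × E) × ℝ => max (2 * q.1.1 - 1) 0)
        ((Icc 0 1 ×ˢ closedBall (0 : E) R₀) ×ˢ Icc 0 1) := Continuous.continuousOn (by fun_prop)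
    have hZc := (((continuousOn_const (c := (1 : ℝ))).sub hmin).smul
      ((continuous_const (y := c)).add (continuous_snd.comp continuous_fst)).continuousOn).add
        (hmin.smul (hfst.add (continuousOn_snd.smul hwc)))
    exact ((continuousOn_const.sub hmax).smul ((hpc.mono hsub).comp hZc
      fun q hq => hZm q.1 hq.1 q.2 hq.2)).add
        (hmax.smul ((hpc.mono hsub).comp hfst fun q hq => hPm q.1 hq.1 q.2 hq.2))
  · intro q hq
    have h0 := hB q.2 hq.2
    obtain ⟨hP0, hP1⟩ : P q.2 0 = c + q.2 ∧ P q.2 1 = f (h ^ (p ^ b * p)) (c + q.2) := by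
      have hH1 : ∀ j, j < p ^ b * p → f (h ^ j) (H q.2 1) = f (h ^ (j + 1)) (c + q.2) :=
        fun j _ => by
          have h1 : H q.2 1 = f h (c + q.2) := by simp [H]
          have h2 := hHR q.2 hq.2 1 (right_mem_Icc.2 zero_le_one)
          rw [h1] at h2 ⊢
          rw [← hf.mul _ h _ h0 h2, ← pow_succ]
      constructor <;> simp only [P]
      · rw [pathP_eq (F := fun i => f (h ^ i)) (by simp [hf.one _ h0]) (by simp [H]) hH1
          zero_le_one (i := 0) (s := 0) ⟨le_rfl, zero_le_one⟩ (by simp)]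
        simp [H, hf.one _ h0]
      · rw [pathP_eq (F := fun i => f (h ^ i)) (by simp [hf.one _ h0]) (by simp [H]) hH1
          le_rfl (i := p ^ b * p) (s := 0) ⟨le_rfl, zero_le_one⟩ (by simp)]
        simp [H]
    have hmemN : f (h ^ (p ^ b * p)) (c + q.2) ∈ closedBall c R :=
      hsub (hmem' hq.2 (by linarith [hδ (h ^ (p ^ b * p)) _ h0]))
    have hpair : pair (P q.2 1) = pair (P q.2 0) := by
      rw [hP0, hP1]
      simp only [pair, A, avgMap_invariant hf id _ h0 hmemN, hσeq _ _ h0 hmemN, C.map_pow]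
      rw [Nat.cast_mul, mul_div_cancel_right₀ _ (Nat.cast_ne_zero.2 hpp.ne_zero),
        show ((p ^ b : ℕ) : ℝ) = ((p ^ b : ℕ) : ℤ) by push_cast; rfl, circ_int, one_mul]
    have hZ01 : Z q 0 = Z q 1 := by
      simp only [Z, hP0, hP1, w, zero_smul, one_smul, add_zero, add_sub_cancel]
    simp only [Q, hZ01, hpair]
  · intro q hq t ht h0
    obtain ⟨hr1, hr2⟩ := hτ _ hq.1
    by_cases hcase : 2 * q.1 ≤ 1
    · simp only [Q, max_eq_right (show 2 * q.1 - 1 ≤ 0 by linarith), zero_smul, add_zero, sub_zero,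
        one_smul] at h0
      have := hμle _ (hZm q hq t ht)
      change μ ≤ ‖pair (Z q t)‖ at this
      rw [h0, norm_zero] at this
      linarith
    · push Not at hcase
      have hd : dist (P q.2 t) (Z q t) < δ₁ := by
        simp only [Z, min_eq_right hcase.le, sub_self, zero_smul, zero_add, one_smul]
        rw [dist_self_add_right, norm_smul, Real.norm_eq_abs, abs_of_nonneg ht.1]
        exact (mul_le_of_le_one_left (norm_nonneg _) ht.2).trans_lt (hw q.2 hq.2).2
      have h1 := huc _ (hsub (hPm q hq t ht)) _ (hsub (hZm q hq t ht)) hd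
      have h2 : dist (Q q t) (pair (Z q t)) < μ :=
        mem_ball.1 ((convex_ball (pair (Z q t)) μ) (mem_ball_self hμ) (mem_ball.2 h1)
          (by linarith [hr2.2]) hr2.1 (by ring))
      rw [show Q q t = 0 from h0, dist_zero_left] at h2
      exact absurd h2 (not_lt.2 (hμle _ (hZm q hq t ht)))
  · intro x hx t ht
    simp [Q, Z, pair, A]
  · intro x hx t ht
    norm_num [Q, Z, pair, P, A]
  · intro x hx τ hτ' t ht r hr h0
    have hxB := sphere_subset_closedBall hx
    obtain ⟨hr1, hr2⟩ := hτ τ hτ'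
    have hA' : ∀ z : E, dist z (c + x) ≤ 3 * δ →
        A z - y ∈ closedBall (c + x - y) (4 * δ) := fun z hz => mem_closedBall.2 (by
      rw [dist_sub_right]
      linarith [dist_triangle (A z) z (c + x), hAd z (hsub (hmem' hxB hz))])
    have hv : (Q (τ, x) t).1 ∈ closedBall (c + x - y) (4 * δ) := by
      simp only [Q, Prod.fst_add, Prod.smul_fst, pair]
      exact (convex_closedBall _ _) (hA' _ (hZ (τ, x) ⟨hτ', hxB⟩ t ht))
        (hA' _ (by linarith [hPd x hxB t ht])) (by linarith [hr2.2]) hr2.1 (by ring)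
    have h1 : A (c + x) - y + r • ((Q (τ, x) t).1 - (A (c + x) - y))
        ∈ closedBall (c + x - y) (4 * δ) :=
      (convex_closedBall _ _).add_smul_sub_mem
        (hA' _ (by simp; linarith)) hv hr
    rw [h0, mem_closedBall, dist_zero_left, add_comm c, add_sub_assoc] at h1
    have h2 : R₀ ≤ ‖x + (c - y)‖ + R / 2 := by
      have := norm_sub_le (x + (c - y)) (c - y)
      rw [add_sub_cancel_right, mem_sphere_zero_iff_norm.1 hx, ← dist_eq_norm, dist_comm] at this
      linarith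
    linarith [hR₀]

/-- A fixed ball whose boundary passes through a limit of moved points. -/
theorem not_touching {f : K → E → E} {R : ℝ} (hf : IsLocalAction f 0 R) {p : ℕ} {h : K}
    (hpp : p.Prime) (C : Procyclic K p h) (hR : 0 < R) (h0 : ∀ k, f k 0 = 0)
    (hper : ∃ V ∈ 𝓝 (1 : K), ∀ᶠ x in 𝓝 (0 : E), ∀ l ∈ V, f l x = x)
    (htame : Tame f 0 R (closedBall 0 (R / 2)))
    {s : ℝ} (hs : 0 < s) {e : E} (he : ‖e‖ = 1)
    (hfixball : ∀ x ∈ ball (-(s • e)) s, x ∈ closedBall 0 R → ∀ k, f k x = x)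
    (hmoved : ∀ r > 0, ∃ x, ‖x‖ < r ∧ ∃ k, f k x ≠ x) : False := by
  obtain ⟨R₁, hR₁, hR₁R, hKR₁⟩ := exists_equi hf hR h0 hR
  set R' := min R₁ (min (R / 2) (s / 8))
  have hR'0 : 0 < R' := by positivity
  have hR'R₁ : R' ≤ R₁ := min_le_left _ _
  have hR'R : R' ≤ R / 2 := (min_le_right _ _).trans (min_le_left _ _)
  have hR's : R' ≤ s / 8 := (min_le_right _ _).trans (min_le_right _ _)
  obtain ⟨R₀, b, H, Z, hR₀0, hR₀', hHc, hH0, hH1, hHmem, hZc, hZper, hZs, hZ0, hZ1⟩ :=
    exists_scaled hf C hR h0 hper hs he hfixball hR'0 hR'R hR's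
  have hB : ∀ x ∈ closedBall (0 : E) R₀, (0 : E) + x ∈ closedBall (0 : E) R := fun x hx => by
    rw [zero_add]; exact closedBall_subset_closedBall (by linarith) hx
  set A := avgMap f (bend s e)
  have hA := continuousOn_avgMap hf (continuous_bend s e)
  have hR'B : closedBall (0 : E) R' ⊆ closedBall 0 R :=
    closedBall_subset_closedBall (by linarith)
  have horb : ∀ x ∈ closedBall (0 : E) R', ∀ k, f k x ∈ closedBall (0 : E) R := fun x hx k =>
    mem_closedBall_zero_iff.2 (hKR₁ k x ((mem_closedBall_zero_iff.1 hx).trans hR'R₁)).le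
  have hAfix : ∀ x ∈ closedBall (0 : E) R', ¬ Above s e x → A x = bend s e x := fun x hx hG =>
    avgMap_fixed (fixed_of_not_above h0 hfixball x (hR'B hx) hG)
  have hApos : ∀ x ∈ closedBall (0 : E) R', Above s e x → 0 < ⟪e, A x⟫ := by
    intro x hx hG
    obtain ⟨l₀, -, hmin⟩ := isCompact_univ.exists_isMinOn (univ_nonempty (α := K))
      (continuous_const.inner ((continuous_bend s e).comp (hf.cont_left (hR'B hx)))).continuousOn
      (f := fun k => ⟪e, bend s e (f k x)⟫)
    have hpos : 0 < ⟪e, bend s e (f l₀ x)⟫ := by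
      obtain ⟨h1, h2⟩ := above_map hf h0 hfixball l₀ x (hR'B hx) (horb x hx l₀) hG
      exact bend_pos hs he h1 h2
    exact hpos.trans_le (avgMap_mem hf (continuous_bend s e) (hR'B hx)
      (convex_halfSpace_ge (innerSL ℝ e).toLinearMap.isLinear _)
      (isClosed_le continuous_const (continuous_const.inner continuous_id)) fun k =>
        hmin (mem_univ k))
  have hψ0 : ∀ x ∈ sphere (0 : E) R₀, bend s e x ≠ 0 := fun x hx h' => by
    have hxn := mem_sphere_zero_iff_norm.1 hx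
    have := bend_inj hs he (by rw [hxn, norm_zero]; linarith) (h'.trans (bend_zero s e).symm)
    rw [this, norm_zero] at hxn
    linarith
  have hseg : ∀ a a' : E, 0 < ⟪e, a⟫ → 0 < ⟪e, a'⟫ → ∀ r ∈ Icc (0 : ℝ) 1, a + r • (a' - a) ≠ 0 := by
    intro a a' ha ha' r hr h'
    have : 0 < ⟪e, a + r • (a' - a)⟫ :=
      (convex_halfSpace_gt (innerSL ℝ e).toLinearMap.isLinear 0).add_smul_sub_mem ha ha' hr
    rw [h', inner_zero_right] at this
    exact lt_irrefl _ this
  have hR₀R' : closedBall (0 : E) R₀ ⊆ closedBall 0 R' :=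
    closedBall_subset_closedBall (by linarith)
  -- lower bounds on the sphere
  obtain ⟨μ₁, hμ₁, hμ₁le⟩ := exists_min_norm
    (f := fun q : ((ℝ × E) × ℝ) × ℝ =>
      A q.1.1.2 + q.2 • (A (Z q.1.1 q.1.2) - A q.1.1.2))
    ((((isCompact_Icc (a := (0 : ℝ)) (b := 1)).prod (isCompact_sphere (0 : E) R₀)).prod
      (isCompact_Icc (a := (0 : ℝ)) (b := 1))).prod (isCompact_Icc (a := (0 : ℝ)) (b := 1)))
    (by
      have h1 : ContinuousOn (fun q : ((ℝ × E) × ℝ) × ℝ => A q.1.1.2)
          (((Icc 0 1 ×ˢ sphere (0 : E) R₀) ×ˢ Icc 0 1) ×ˢ Icc 0 1) :=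
        hA.comp (Continuous.continuousOn (by fun_prop)) fun q hq =>
          hR'B (hR₀R' (sphere_subset_closedBall hq.1.1.2))
      refine h1.add (continuousOn_snd.smul (ContinuousOn.sub ?_ h1))
      exact hA.comp (hZc.comp (f := fun q : ((ℝ × E) × ℝ) × ℝ => q.1) continuousOn_fst
        fun q hq => ⟨⟨hq.1.1.1, sphere_subset_closedBall hq.1.1.2⟩, hq.1.2⟩)
        fun q hq => hR'B (hZs _ (sphere_subset_closedBall hq.1.1.2) _ _ hq.1.2).1)
    (by
      rintro ⟨⟨⟨τ, x⟩, t⟩, r⟩ ⟨⟨⟨-, hx⟩, ht⟩, hr⟩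
      have hxB := sphere_subset_closedBall hx
      obtain ⟨hZm, hf1, hf2⟩ := hZs x hxB τ t ht
      by_cases hG : Above s e x
      · exact hseg _ _ (hApos x (hR₀R' hxB) hG) (hApos _ hZm (hf2 hG)) r hr
      · simp only [hf1 hG, sub_self, smul_zero, add_zero, hAfix x (hR₀R' hxB) hG]
        exact hψ0 x hx)
  obtain ⟨μ₂, hμ₂, hμ₂le⟩ := exists_min_norm
    (f := fun q : E × ℝ => A q.1 + q.2 • (bend s e q.1 - A q.1))
    ((isCompact_sphere (0 : E) R₀).prod (isCompact_Icc (a := (0 : ℝ)) (b := 1)))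
    (by
      have h1 : ContinuousOn (fun q : E × ℝ => A q.1) (sphere (0 : E) R₀ ×ˢ Icc 0 1) :=
        hA.comp continuousOn_fst fun q hq => hR'B (hR₀R' (sphere_subset_closedBall hq.1))
      exact h1.add (continuousOn_snd.smul
        (((continuous_bend s e).comp continuous_fst).continuousOn.sub h1)))
    (by
      rintro ⟨x, r⟩ ⟨hx, hr⟩
      have hxB := hR₀R' (sphere_subset_closedBall hx)
      by_cases hG : Above s e x
      · exact hseg _ _ (hApos x hxB hG) (bend_pos hs he hG.1 hG.2) r hr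
      · simp only [hAfix x hxB hG, sub_self, smul_zero, add_zero]
        exact hψ0 x hx)
  -- a moved point near the origin
  set μ := min μ₁ μ₂
  have hμ : 0 < μ := lt_min hμ₁ hμ₂
  obtain ⟨a, ha, k₀, hk₀⟩ := hmoved (min R₀ (μ / 8)) (by positivity)
  set F := {x ∈ closedBall (0 : E) R | ∀ k, f k x = x}
  have hFc : IsClosed F := by
    have : F = ⋂ k, closedBall 0 R ∩ (fun x => f k x - x) ⁻¹' {0} := by
      ext x; simp [F, sub_eq_zero, forall_and]
    rw [this]
    exact isClosed_iInter fun k => ((hf.cont_right k).sub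
      continuousOn_id).preimage_isClosed_of_isClosed isClosed_closedBall isClosed_singleton
  obtain ⟨ε, hε, hεsub⟩ := Metric.isOpen_iff.1
    ((isOpen_ball (x := (0 : E)) (ε := R₀)).sdiff hFc) a
    ⟨mem_ball_zero_iff.2 (ha.trans_le (min_le_left _ _)), fun h' => hk₀ (h'.2 k₀)⟩
  have hreg : ∀ x ∈ closedBall (0 : E) R', ∃ L : E ≃L[ℝ] E,
      HasStrictFDerivAt (bend s e) (L : E →L[ℝ] E) x := fun x hx =>
    bend_regular hs he (by linarith [mem_closedBall_zero_iff.1 hx])
  have haR : a ∈ closedBall (0 : E) R' :=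
    hR₀R' (ball_subset_closedBall (hεsub (mem_ball_self hε)).1)
  have himg : bend s e '' ball a ε ∈ 𝓝 (bend s e a) := by
    obtain ⟨L, hL⟩ := hreg a haR
    rw [← hL.map_nhds_eq_of_equiv]
    exact image_mem_map (ball_mem_nhds _ hε)
  obtain ⟨ε₁, hε₁, hε₁sub⟩ := Metric.nhds_basis_closedBall.mem_iff.1 himg
  set ε' := min ε₁ (μ / 8)
  have hε' : 0 < ε' := by positivity
  have hU : closedBall (bend s e a) ε' ⊆ bend s e '' ball a ε :=
    (closedBall_subset_closedBall (min_le_left _ _)).trans hε₁sub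
  have hinj : ∀ x ∈ closedBall (0 : E) R', ∀ z ∈ ball a ε, bend s e x = bend s e z → x = z :=
    fun x hx z hz h' => bend_inj hs he (by
      linarith [mem_closedBall_zero_iff.1 hx, mem_ball_zero_iff.1 (hεsub hz).1]) h'
  obtain ⟨y, hy, σ, hσ, hσeq, hσne⟩ := exists_good hf C.cont hpp.pos C.pow_p C.map_one C.map_mul
    (continuous_bend s e) (fun r => bend_lipschitz hs he r) (R' := R') (by linarith)
    (htame.mono (closedBall_subset_closedBall hR'R))
    (U := ball (bend s e a) ε') isOpen_ball ⟨_, mem_ball_self hε'⟩ isBounded_ball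
    (fun x hx hAx k l => sep_of_moved hf C (hR'B hx) (horb x hx) (by
      by_contra hfix
      push Not at hfix
      rw [avgMap_fixed hfix] at hAx
      obtain ⟨z, hz, hze⟩ := hU (closure_ball_subset_closedBall hAx)
      exact (hεsub (hinj x hx z hz hze.symm ▸ hz)).2 ⟨hR'B hx, hfix⟩))
  obtain ⟨x₀, hx₀, hx₀y⟩ := hU (ball_subset_closedBall hy)
  have hx₀B : x₀ ∈ closedBall (0 : E) R₀ := ball_subset_closedBall (hεsub hx₀).1
  have hyμ : ‖y‖ < μ := by
    have h1 := norm_bend_le hs he (a := a)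
      (by linarith [min_le_left R₀ (μ / 8)] : ‖a‖ ≤ s)
    have h2 : ‖y - bend s e a‖ < ε' := mem_ball_iff_norm.1 hy
    have h3 := norm_le_norm_add_norm_sub' y (bend s e a)
    linarith [min_le_right R₀ (μ / 8), min_le_right ε₁ (μ / 8)]
  have hpc : ContinuousOn (fun z => (A z - y, σ z)) (closedBall (0 : E) R) :=
    (hA.sub continuousOn_const).prodMk hσ
  refine no_config hf hpp C (m := p ^ b) (pow_pos hpp.pos b) hR₀0 hB hA hσ
    (fun l x hx hlx => avgMap_invariant hf _ l hx hlx) hσeq (y := y)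
    (fun x hx => hσne _ (by rw [zero_add]; exact hR₀R' hx))
    (ψ := fun x => bend s e x - y) (x₀ := x₀) ⟨((continuous_bend s e).sub
      continuous_const).continuousOn, fun x => ?_, fun x hx => ?_⟩ ?_ (H := H) hHc hH0 hH1
    (fun x hx r hr => ⟨(hHmem x hx r hr).1, fun i _ => (hHmem x hx r hr).2 _⟩)
    (Q := fun q t => (A (Z q t) - y, σ (Z q t))) ?_ (fun q hq => by simp only [hZper q hq])
    ?_ (fun x hx t ht => by simp only [A, hZ0 x hx t ht])
    (fun x hx t ht => by simp only [A, hZ1 x hx t]) ?_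
  · simp only [Finset.mem_singleton, sub_eq_zero]
    exact ⟨fun h' => h' ▸ ⟨hx₀B, hx₀y⟩, fun h' =>
      hinj x (hR₀R' h'.1) x₀ hx₀ (h'.2.trans hx₀y.symm)⟩
  · rw [Finset.mem_singleton] at hx
    obtain ⟨L, hL⟩ := hreg x (hx ▸ hR₀R' hx₀B)
    exact ⟨L, hL.hasFDerivAt.sub_const y⟩
  · intro x hx r hr h'
    have h2 : μ₂ ≤ ‖A x + r • (bend s e x - A x)‖ := hμ₂le (x, r) ⟨hx, hr⟩
    simp only [zero_add] at h'
    have h3 : A x + r • (bend s e x - A x) = y := by
      rw [← sub_eq_zero, ← h']; module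
    rw [h3] at h2
    linarith [min_le_right μ₁ μ₂]
  · exact hpc.comp hZc fun q hq => hR'B (hZs q.1.2 hq.1.2 q.1.1 q.2 hq.2).1
  · rintro ⟨τ, x⟩ ⟨-, hx⟩ t ht h'
    exact hσne _ (hZs x hx τ t ht).1 (sub_eq_zero.1 (congrArg Prod.fst h'))
      (congrArg Prod.snd h')
  · intro x hx τ hτ t ht r hr h'
    have h2 : μ₁ ≤ ‖A x + r • (A (Z (τ, x) t) - A x)‖ :=
      hμ₁le (((τ, x), t), r) ⟨⟨⟨hτ, hx⟩, ht⟩, hr⟩
    simp only [zero_add] at h'
    have h3 : A x + r • (A (Z (τ, x) t) - A x) = y := by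
      rw [← sub_eq_zero, ← h']; module
    rw [h3] at h2
    linarith [min_le_left μ₁ μ₂]

end Newman

end

end Vale.Agent.P228.Var
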