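import Vale.Agent.P228.Frac.Charts
import Vale.Agent.P228.Var.Core

/-!
Actions with vanishing oscillation sums in charts: the Baire category step and the finite germ
bound.
-/

namespace Vale.Agent.P228.Var

open Metric Set Function Filter
open scoped Topology ENNReal

noncomputable section

/-- Near every point every element has, read in a chart, vanishing sums of `(n + 2)`-th powers of
oscillations over separated sets. -/
def IsVarAction (E : Type*) [NormedAddCommGroup E] [InnerProductSpace ℝ E] (G M : Type*)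
    [SMul G M] [TopologicalSpace M] [ChartedSpace E M] (Λ : Set M) : Prop :=
  ∀ g : G, ∀ e ∈ atlas E M, ∀ x ∈ e.source, x ∈ Λ → g • x ∈ e.source → g • x ∈ Λ →
    ∃ r > 0, SmallVar (fun z => e (g • e.symm z)) (closedBall (e x) r)

variable {E : Type*} [NormedAddCommGroup E] [InnerProductSpace ℝ E] [FiniteDimensional ℝ E]
variable {M : Type*} [TopologicalSpace M] [ChartedSpace E M] {Λ : Set M}

/-- a chart of the atlas cut down to the open set `Λ` of regular points -/
def RegChart (Λ : Set M) (e : OpenPartialHomeomorph M E) : Prop :=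
  ∃ e₀ ∈ atlas E M, ∃ h : IsOpen Λ, e = e₀.restrOpen Λ h

omit [FiniteDimensional ℝ E] in
lemma regChart_chartAt (hΛ : IsOpen Λ) (x : M) : RegChart Λ ((chartAt E x).restrOpen Λ hΛ) :=
  ⟨_, chart_mem_atlas E x, hΛ, rfl⟩

omit [FiniteDimensional ℝ E] in
lemma RegChart.mem {e : OpenPartialHomeomorph M E} (he : RegChart Λ e) {y : M}
    (hy : y ∈ e.source) : y ∈ Λ := by
  obtain ⟨e₀, -, h, rfl⟩ := he
  exact hy.2

/-- on a compact subset of the domain the sums vanish -/
lemma IsVarAction.smallVar {G : Type*} [Group G] [MulAction G M]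
    (h : IsVarAction E G M Λ) {e : OpenPartialHomeomorph M E} (he : RegChart Λ e) {g : G} {X : Set E}
    (hX : IsCompact X) (hXe : ∀ z ∈ X, z ∈ e.target ∧ g • e.symm z ∈ e.source) :
    SmallVar (chartRep e g) X := by
  refine hX.induction_on (p := fun Y => SmallVar (chartRep e g) Y) (smallVar_empty _)
    (fun Y Z hYZ hZ => hZ.mono hYZ) (fun Y Z hY hZ => hY.union hZ) fun z hz => ?_
  obtain ⟨hzT, hzs⟩ := hXe z hz
  obtain ⟨e₀, he₀, hΛ, rfl⟩ := he
  obtain ⟨r, hr, hsv⟩ := h g e₀ he₀ (e₀.symm z) ((e₀.restrOpen Λ hΛ).map_target hzT).1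
    ((e₀.restrOpen Λ hΛ).map_target hzT).2 hzs.1 hzs.2
  rw [show e₀ (e₀.symm z) = z from (e₀.restrOpen Λ hΛ).right_inv hzT] at hsv
  exact ⟨closedBall z r, mem_nhdsWithin_of_mem_nhds (closedBall_mem_nhds z hr), hsv⟩

lemma var_congr {h h' : E → E} {X : Set E} {δ : ℝ} (hδ : 0 < δ)
    (he : ∀ z ∈ X, ∀ w ∈ ball z δ, h w = h' w) : var h X δ ≤ var h' X δ := by
  refine (var_le_mul (L := 1) (h := h') fun z hz w hw => ?_).trans_eq (by simp)
  rw [he z hz w hw, he z hz z (mem_ball_self hδ), one_mul]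

variable {K : Type*} [CommGroup K] [TopologicalSpace K] [IsTopologicalGroup K] [CompactSpace K]
  [MulAction K M]

/-- If open subgroups fix neighbourhoods of the points of a compact set, any family of elements has
finitely many germs along it. -/
lemma unifVar_of_germ (hact : IsVarAction E K M Λ) {e : OpenPartialHomeomorph M E}
    (he : RegChart Λ e) {X : Set E} (hX : IsCompact X) (hXT : X ⊆ e.target) {ι : Type*}
    (u : ι → K) (hmaps : ∀ i, ∀ z ∈ X, u i • e.symm z ∈ e.source)
    (hgerm : ∀ z ∈ X, ∃ T : Subgroup K, IsOpen (T : Set K) ∧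
      ∀ᶠ y in 𝓝 (e.symm z), ∀ t ∈ T, t • y = y) :
    UnifVar (fun i => chartRep e (u i)) X := by
  classical
  refine ⟨?_, fun i => hact.smallVar he hX fun z hz => ⟨hXT hz, hmaps i z hz⟩⟩
  -- one open subgroup fixing a neighbourhood of `X`
  obtain ⟨T, hT, W, hWo, hXW, hW⟩ : ∃ T : Subgroup K, IsOpen (T : Set K) ∧ ∃ W : Set E,
      IsOpen W ∧ X ⊆ W ∧ ∀ w ∈ W, ∀ t ∈ T, t • e.symm w = e.symm w := by
    choose T hT hTfix using hgerm
    have hev : ∀ z : X, ∀ᶠ w in 𝓝 (z : E), ∀ t ∈ T z z.2, t • e.symm w = e.symm w := fun z =>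
      (e.continuousAt_symm (hXT z.2)).eventually (hTfix z z.2)
    choose W hW hWo hzW using fun z : X => _root_.eventually_nhds_iff.1 (hev z)
    obtain ⟨t, ht⟩ := hX.elim_finite_subcover W hWo fun z hz => mem_iUnion.2 ⟨⟨z, hz⟩, hzW ⟨z, hz⟩⟩
    refine ⟨⨅ z ∈ t, T z z.2, ?_, ⋃ z ∈ t, W z, isOpen_biUnion fun z _ => hWo z, ht, ?_⟩
    · rw [Subgroup.coe_iInf]
      simp only [Subgroup.coe_iInf]
      exact isOpen_biInter_finset fun z _ => hT z z.2
    · intro w hw s hs
      obtain ⟨z, hz, hwz⟩ := mem_iUnion₂.1 hw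
      simp only [Subgroup.mem_iInf] at hs
      exact hW z w hwz s (hs z hz)
  obtain ⟨δ₁, hδ₁, hball⟩ := eventually_mem_ball_subset hX hWo hXW
  have : DiscreteTopology (K ⧸ T) := QuotientGroup.discreteTopology hT
  have : Finite (K ⧸ T) := finite_of_compact_of_discrete
  set Q := range fun i => (u i : K ⧸ T)
  choose i₀ hi₀ using fun q : Q => q.2
  have hev : ∀ᶠ δ in 𝓝[>] (0 : ℝ), ∀ q : Q, var (chartRep e (u (i₀ q))) X δ ≤ 1 :=
    eventually_all.2 fun q => (hact.smallVar he hX fun z hz =>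
      ⟨hXT hz, hmaps _ z hz⟩).eventually (ge_mem_nhds zero_lt_one)
  obtain ⟨δ₀, hδ₀, hδ₀'⟩ := (nhdsGT_basis (0 : ℝ)).eventually_iff.1 hev
  refine ⟨1, min (δ₀ / 2) δ₁, ENNReal.one_ne_top, lt_min (half_pos hδ₀) hδ₁, fun i δ h0 hδ => ?_⟩
  let q : Q := ⟨(u i : K ⧸ T), mem_range_self i⟩
  have hmem : (u (i₀ q))⁻¹ * u i ∈ T := QuotientGroup.eq.1 (hi₀ q)
  refine (var_congr (h' := chartRep e (u (i₀ q))) h0 fun z hz w hw => ?_).trans
    (hδ₀' ⟨h0, by linarith [min_le_left (δ₀ / 2) δ₁]⟩ q)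
  beta_reduce
  conv_lhs => rw [← mul_inv_cancel_left (u (i₀ q)) (u i)]
  simp only [chartRep]
  rw [mul_smul, hW w (hball δ (hδ.trans (min_le_right _ _)) z hz hw) _ hmem]

/-- Newman's lemma, also for the trivial group -/
theorem fixed_of_small' [MeasurableSpace E] [BorelSpace E] [T2Space K]
    [TotallyDisconnectedSpace K] {f : K → E → E} {c : E} {R δ : ℝ} (hf : IsLocalAction f c R)
    {p : ℕ} (hpp : p.Prime) (hp : PIndices K p) {h : K}
    (hd : Dense ((Subgroup.zpowers h : Subgroup K) : Set K)) (hR : 0 < R)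
    (hδ : ∀ k, ∀ x ∈ closedBall c R, dist (f k x) x ≤ δ) (hδR : 64 * δ ≤ R)
    (htame : Tame f c R (closedBall c (15 * R / 16))) :
    ∀ x ∈ ball c (R / 2), ∀ k, f k x = x := by
  intro x hx k
  rcases subsingleton_or_nontrivial K with hK | hK
  · rw [Subsingleton.elim k 1]
    exact hf.one x (mem_closedBall.2 (by linarith [mem_ball.1 hx]))
  · obtain ⟨C⟩ := Frac.exists_procyclic hpp hp hd
    exact fixed_of_small hf hpp C hR hδ hδR htame x hx k

variable [T2Space K] [TotallyDisconnectedSpace K] [ContinuousSMul K M]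
  [MeasurableSpace E] [BorelSpace E]

/-- Every point has a neighbourhood on which an open subgroup acts trivially. -/
theorem locally_finite_image (hact : IsVarAction E K M Λ) {p : ℕ} (hpp : p.Prime)
    (hp : PIndices K p) {h : K} (hd : Dense ((Subgroup.zpowers h : Subgroup K) : Set K)) (hΛ : IsOpen Λ) {x : M} (hx : x ∈ Λ) :
    ∃ S : Subgroup K, IsOpen (S : Set K) ∧ ∀ᶠ y in 𝓝 x, ∀ s ∈ S, s • y = y := by
  set e := (chartAt E x).restrOpen Λ hΛ
  have he : RegChart Λ e := regChart_chartAt hΛ x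
  have hxe : x ∈ e.source := ⟨mem_chart_source E x, hx⟩
  set c := e x
  obtain ⟨R₂, hR₂, hsub⟩ := exists_closedBall_subset_target e (e.map_source hxe)
  set R := R₂ / 2 with hR_def
  have hR : 0 < R := by positivity
  obtain ⟨U, hU, hUo, hU1⟩ := _root_.mem_nhds_iff.1
    (eventually_small (G := K) hsub (show (0 : ℝ) < R / 4 by positivity))
  obtain ⟨N₀, hN₀⟩ := ProfiniteGrp.exist_openNormalSubgroup_sub_open_nhds_of_one hUo hU1
  let N : Subgroup K := N₀.toSubgroup
  have hNo : IsOpen (N : Set K) := N₀.isOpen'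
  have hN : ∀ g ∈ N, ∀ z ∈ closedBall c R₂,
      g • e.symm z ∈ e.source ∧ dist (chartRep e g z) z < R / 4 := fun g hg => hU (hN₀ hg)
  have hMB : MapsBall e (N : Set K) c R₂ := ⟨hsub, fun g hg z hz => (hN g hg z hz).1⟩
  set X := closedBall c R
  have hXc : IsCompact X := isCompact_closedBall c R
  have hXB : X ⊆ closedBall c R₂ := closedBall_subset_closedBall (by linarith)
  have : LocallyCompactSpace ↥(N : Set K) := hNo.locallyCompactSpace
  have : Nonempty ↥(N : Set K) := ⟨⟨1, N.one_mem⟩⟩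
  let rad : ℕ → ℝ := fun m => R / (4 * ((m : ℝ) + 1))
  have hrad : ∀ m, 0 < rad m ∧ rad m ≤ R / 4 := fun m => ⟨by positivity, by
    simp only [rad]
    gcongr
    linarith [m.cast_nonneg (α := ℝ)]⟩
  let T : ℕ → Set ↥(N : Set K) := fun m =>
    {g | ∀ δ, 0 < δ → δ ≤ rad m → var (chartRep e (g : K)) X δ ≤ 1}
  have hclosed : ∀ m, IsClosed (T m) := by
    intro m
    simp only [T, ofPred_forall]
    refine isClosed_iInter fun δ => isClosed_iInter fun h0 => isClosed_iInter fun hδ => ?_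
    refine (lowerSemicontinuous_var (g := fun g : ↥(N : Set K) => chartRep e (g : K))
      (fun z hz w hw => ?_) h0).isClosed_preimage 1
    exact (continuousOn_chartRep hMB).comp_continuous (continuous_subtype_val.prodMk continuous_const)
      fun g => ⟨g.2, mem_closedBall.2 (by
        linarith [dist_triangle w z c, mem_ball.1 hw, mem_closedBall.1 hz, (hrad m).2])⟩
  have hcover : ⋃ m, T m = univ := by
    refine eq_univ_of_forall fun g => ?_
    obtain ⟨δ₀, hδ₀, h₁⟩ := (nhdsGT_basis (0 : ℝ)).eventually_iff.1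
      ((hact.smallVar he hXc fun z hz => ⟨hsub (hXB hz), (hN g g.2 z (hXB hz)).1⟩).eventually
        (ge_mem_nhds zero_lt_one))
    obtain ⟨m, hm⟩ := exists_nat_gt (R / δ₀)
    refine mem_iUnion.2 ⟨m, fun δ h0 hδ => h₁ ⟨h0, hδ.trans_lt ?_⟩⟩
    simp only [rad]
    rw [div_lt_iff₀ (by positivity)]
    rw [div_lt_iff₀ hδ₀] at hm
    nlinarith
  obtain ⟨m, hm⟩ := nonempty_interior_of_iUnion_of_closed hclosed hcover
  obtain ⟨g₀, hq⟩ := hm
  obtain ⟨O₁, hO₁, hO₁sub⟩ :=
    (mem_nhds_subtype (N : Set K) g₀ _).1 (mem_interior_iff_mem_nhds.1 hq)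
  -- the parametrisation and its image
  set g : K := (g₀ : K)
  have hgN : g ∈ N := g₀.2
  set θ : E → E := chartRep e g
  set z' := θ c
  have hcB : c ∈ closedBall c R₂ := mem_closedBall_self hR₂.le
  have hθc : ContinuousOn θ (ball c R) :=
    (continuousOn_chartRep hMB).comp (continuousOn_const.prodMk continuousOn_id)
      fun w hw => ⟨hgN, hXB (ball_subset_closedBall hw)⟩
  have hgs : ∀ w ∈ closedBall c R₂, g • e.symm w ∈ e.source := fun w hw => (hN g hgN w hw).1
  have hback : chartRep e g⁻¹ z' = c := by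
    simp only [z', θ, chartRep, e.left_inv (hgs _ hcB), inv_smul_smul, e.right_inv (hsub hcB)]
  have hz'B : z' ∈ ball c R₂ := mem_ball.2 (by linarith [(hN g hgN c hcB).2])
  have hnb : ∀ᶠ y in 𝓝 z', y ∈ ball c R₂ ∧ chartRep e g⁻¹ y ∈ ball c R := by
    refine (isOpen_ball.eventually_mem hz'B).and ?_
    have h1 : ContinuousAt (fun y => chartRep e g⁻¹ y) z' :=
      ((continuousOn_chartRep hMB).comp (continuousOn_const.prodMk continuousOn_id)
        fun y hy => ⟨N.inv_mem hgN, ball_subset_closedBall hy⟩).continuousAt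
        (isOpen_ball.mem_nhds hz'B)
    exact h1.eventually (isOpen_ball.mem_nhds (by simp only [hback]; exact mem_ball_self hR))
  obtain ⟨R', hR', hR'sub⟩ := Metric.nhds_basis_closedBall.mem_iff.1 hnb
  have hR'T : closedBall z' R' ⊆ e.target := fun y hy =>
    hsub (ball_subset_closedBall (hR'sub hy).1)
  obtain ⟨U', hU', hU'o, hU'1⟩ := _root_.mem_nhds_iff.1
    (inter_mem (inter_mem ((continuous_mul_const g).tendsto' 1 g (one_mul _) hO₁)
      (hNo.mem_nhds N.one_mem)) (eventually_small (G := K) hR'T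
        (show (0 : ℝ) < R' / 64 by positivity)))
  obtain ⟨S₀, hS₀⟩ := ProfiniteGrp.exist_openNormalSubgroup_sub_open_nhds_of_one hU'o hU'1
  let S : Subgroup K := S₀.toSubgroup
  have hSo : IsOpen (S : Set K) := S₀.isOpen'
  have : CompactSpace S := isCompact_iff_compactSpace.1
    (Subgroup.isClosed_of_isOpen S hSo).isCompact
  have hsm : ∀ s ∈ S, ∀ y ∈ closedBall z' R',
      s • e.symm y ∈ e.source ∧ dist (chartRep e s y) y < R' / 64 :=
    fun s hs => (hU' (hS₀ hs)).2
  have hsN : ∀ s ∈ S, s * g ∈ N ∧ s * g ∈ O₁ := fun s hs =>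
    ⟨N.mul_mem (hU' (hS₀ hs)).1.2 hgN, (hU' (hS₀ hs)).1.1⟩
  have hmaps : MapsBall (G := S) e univ z' R' := ⟨hR'T, fun s _ y hy => (hsm s s.2 y hy).1⟩
  set D := ball c R ∩ θ ⁻¹' ball z' R'
  have hDo : IsOpen D := hθc.isOpen_inter_preimage isOpen_ball isOpen_ball
  have htame : Tame (fun s : S => chartRep e s) z' R' (closedBall z' (15 * R' / 16)) := by
    refine ⟨θ, D, hDo, hθc.mono inter_subset_left, fun w hw => ball_subset_closedBall hw.2,
      fun y hy => ?_, fun C hCD hC => ?_⟩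
    · have hy' := hR'sub (closedBall_subset_closedBall (by linarith) hy)
      have hyT : y ∈ e.target := hsub (ball_subset_closedBall hy'.1)
      have hys : g⁻¹ • e.symm y ∈ e.source :=
        (hN g⁻¹ (N.inv_mem hgN) y (ball_subset_closedBall hy'.1)).1
      have hval : θ (chartRep e g⁻¹ y) = y := by
        simp only [θ, chartRep, e.left_inv hys, smul_inv_smul, e.right_inv hyT]
      refine ⟨chartRep e g⁻¹ y, ⟨hy'.2, ?_⟩, hval⟩
      rw [mem_preimage, hval, mem_ball]
      linarith [mem_closedBall.1 hy]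
    have hCX : C ⊆ X := fun z hz => ball_subset_closedBall (hCD hz).1
    obtain ⟨δ₁, hδ₁, hball⟩ := eventually_mem_ball_subset hC hDo hCD
    have h0 : UnifVar (fun s : S => chartRep e ((s : K) * g)) C := by
      refine ⟨⟨1, rad m, ENNReal.one_ne_top, (hrad m).1, fun s δ h0 hδ => ?_⟩, fun s => ?_⟩
      · exact (var_mono hCX).trans (hO₁sub (show (⟨(s : K) * g, (hsN s s.2).1⟩ : ↥(N : Set K)).1 ∈ O₁
          from (hsN s s.2).2) δ h0 hδ)
      · exact hact.smallVar he hC fun z hz =>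
          ⟨hsub (hXB (hCX hz)), (hN _ (hsN s s.2).1 z (hXB (hCX hz))).1⟩
    refine h0.comp_le (L := 1) ENNReal.one_ne_top hδ₁ fun s z hz w hw => le_of_eq ?_
    have hrep : ∀ v ∈ D, chartRep (G := S) e s (θ v) = chartRep e ((s : K) * g) v := fun v hv => by
      simp only [θ, chartRep, e.left_inv (hgs v (hXB (ball_subset_closedBall hv.1))), mul_smul]
      rfl
    simp only [hrep w (hball δ₁ le_rfl z hz hw), hrep z (hCD hz), one_mul]
  obtain ⟨h', hd'⟩ := Frac.exists_generator hd S hSo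
  have hfix := fixed_of_small' (isLocalAction_chartRep hmaps) hpp
    (pIndices_openSubgroup hpp hp S hSo) hd' hR' (fun s y hy => (hsm s s.2 y hy).2.le)
    (by linarith) htame
  have hz'T : z' ∈ e.target := hR'T (mem_closedBall_self hR'.le)
  have e1 : g • x = e.symm z' := by
    simp only [z', θ, chartRep, e.left_inv (hgs _ hcB)]
    rw [e.left_inv hxe]
  refine ⟨S, hSo, ?_⟩
  have hmem : e.symm '' ball z' (R' / 2) ∈ 𝓝 (g • x) := e1 ▸
    e.symm.image_mem_nhds (by simpa using hz'T) (ball_mem_nhds _ (by positivity))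
  filter_upwards [(continuous_const_smul g).continuousAt.eventually_mem hmem] with y hy s hs
  obtain ⟨w, hw, hwy⟩ := hy
  have h : e (s • e.symm w) = w := hfix w hw ⟨s, hs⟩
  have hwB : w ∈ closedBall z' R' :=
    ball_subset_closedBall (ball_subset_ball (by linarith) hw)
  have h2 : s • e.symm w = e.symm w := e.injOn (hsm s hs w hwB).1 (e.map_target (hR'T hwB))
    (h.trans (e.right_inv (hR'T hwB)).symm)
  rw [hwy, smul_smul, mul_comm, mul_smul, smul_left_cancel_iff] at h2
  exact h2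

end

end Vale.Agent.P228.Var
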