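import Vale.Agent.P228.Var.Osc

/-!
A continuous map with bounded sums of `n`-th powers of oscillations has vanishing sums of
`(n + 2)`-th powers.
-/

namespace Vale.Agent.P228.Var

open Metric Set Function Filter
open scoped Topology ENNReal

noncomputable section

variable {E : Type*} [NormedAddCommGroup E] [NormedSpace ℝ E] [FiniteDimensional ℝ E]
variable {F : Type*} [PseudoMetricSpace F]

theorem smallVar_of_bounded {h : E → F} {c : E} {r R : ℝ} (hrR : r < R)
    (hc : ContinuousOn h (closedBall c R))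
    (hb : ∃ m : ℝ≥0∞, m ≠ ⊤ ∧ ∀ᶠ δ in 𝓝[>] (0 : ℝ), ∀ S : Finset E,
      (S : Set E) ⊆ closedBall c r → ((S : Set E).Pairwise fun a b => δ ≤ dist a b) →
        ∑ z ∈ S, osc h z δ ^ Module.finrank ℝ E ≤ m) :
    SmallVar h (closedBall c r) := by
  obtain ⟨m, hm, hb⟩ := hb
  refine ENNReal.tendsto_nhds_zero.2 fun ε hε => ?_
  have h0 : Tendsto (fun η : ℝ => ENNReal.ofReal η ^ 2 * m) (𝓝[>] 0) (𝓝 0) := by
    have h := ((ENNReal.continuous_pow 2).comp ENNReal.continuous_ofReal).tendsto (0 : ℝ)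
    have h1 : Tendsto (fun η : ℝ => ENNReal.ofReal η ^ 2) (𝓝[>] 0) (𝓝 0) := by
      simpa [Function.comp_def] using h.mono_left nhdsWithin_le_nhds
    simpa using ENNReal.Tendsto.mul_const h1 (Or.inr hm)
  obtain ⟨η, hη, hη0⟩ :=
    ((h0.eventually (ge_mem_nhds hε)).and (eventually_mem_nhdsWithin (a := (0 : ℝ)) (s := Ioi 0))).exists
  obtain ⟨δ₁, hδ₁, huc⟩ := Metric.uniformContinuousOn_iff.1
    ((isCompact_closedBall c R).uniformContinuousOn_of_continuous hc) η hη0
  filter_upwards [hb, self_mem_nhdsWithin,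
    nhdsWithin_le_nhds (Iio_mem_nhds (lt_min hδ₁ (sub_pos.2 hrR)))] with δ hδb hδ0 hδ
  have hδ' := lt_min_iff.1 (show δ < min δ₁ (R - r) from hδ)
  refine var_le fun S hS hs => le_trans ?_ hη
  calc ∑ z ∈ S, osc h z δ ^ (Module.finrank ℝ E + 2)
      ≤ ∑ z ∈ S, ENNReal.ofReal η ^ 2 * osc h z δ ^ Module.finrank ℝ E := by
        refine Finset.sum_le_sum fun z hz => ?_
        rw [pow_add, mul_comm]
        gcongr
        refine iSup₂_le fun w hw => ?_
        rw [edist_dist]
        have hz' := mem_closedBall.1 (hS hz)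
        refine ENNReal.ofReal_le_ofReal (huc w (mem_closedBall.2 ?_) z (mem_closedBall.2 ?_) ?_).le
        · linarith [dist_triangle w z c, mem_ball.1 hw]
        · linarith
        · linarith [mem_ball.1 hw]
    _ = ENNReal.ofReal η ^ 2 * ∑ z ∈ S, osc h z δ ^ Module.finrank ℝ E := (Finset.mul_sum ..).symm
    _ ≤ _ := mul_le_mul_right (hδb S hS hs) _

end

end Vale.Agent.P228.Var
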