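import Vale.Agent.P228.Frac.Global
import Vale.Agent.P228.Var.Charts

/-!
Global conclusions for actions with vanishing oscillation sums.
-/

namespace Vale.Agent.P228.Var

open Metric Set Function Filter
open scoped Topology RealInnerProductSpace ENNReal
open Frac (exists_procyclic exists_pIndices_subgroup)

noncomputable section

variable {E : Type*} [NormedAddCommGroup E] [InnerProductSpace ℝ E] [FiniteDimensional ℝ E]
  [MeasurableSpace E] [BorelSpace E]
variable {M : Type*} [TopologicalSpace M] [T2Space M] [ChartedSpace E M] {Λ : Set M}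

omit [MeasurableSpace E] [BorelSpace E] [FiniteDimensional ℝ E] in
lemma var_translate (h : E → E) (a : E) (X : Set E) (δ : ℝ) :
    var (fun v => h (a + v) - a) X δ ≤ var h ((fun v => a + v) '' X) δ := by
  classical
  refine var_le fun S hS hs => ?_
  refine le_trans (le_of_eq ?_) (le_var (S := S.image fun v => a + v)
    (by rw [Finset.coe_image]; exact image_mono hS) ?_)
  · rw [Finset.sum_image fun u _ v _ huv => add_left_cancel huv]
    refine Finset.sum_congr rfl fun z _ => ?_
    congr 1
    refine le_antisymm (iSup₂_le fun w hw => ?_) (iSup₂_le fun w hw => ?_)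
    · refine le_trans (le_of_eq (edist_sub_right _ _ a)) (le_iSup₂
        (f := fun v (_ : v ∈ ball (a + z) δ) => edist (h v) (h (a + z))) (a + w) ?_)
      simpa [mem_ball] using hw
    · refine le_trans (le_of_eq ?_) (le_iSup₂
        (f := fun v (_ : v ∈ ball z δ) => edist (h (a + v) - a) (h (a + z) - a)) (w - a) ?_)
      · rw [edist_sub_right, add_sub_cancel]
      · simpa [mem_ball, dist_eq_norm, sub_sub, add_comm z a] using hw
  · rw [Finset.coe_image]
    rintro _ ⟨u, hu, rfl⟩ _ ⟨v, hv, rfl⟩ hne
    simpa using hs hu hv fun huv => hne (huv ▸ rfl)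

omit [MeasurableSpace E] [BorelSpace E] [FiniteDimensional ℝ E] in
lemma unifVar_translate {ι : Type*} {g : ι → E → E} {a : E} {X : Set E}
    (h : UnifVar g ((fun v => a + v) '' X)) : UnifVar (fun k v => g k (a + v) - a) X := by
  obtain ⟨⟨m, δ₀, hm, hδ₀, hb⟩, hs⟩ := h
  exact ⟨⟨m, δ₀, hm, hδ₀, fun k δ h0 hδ => (var_translate (g k) a X δ).trans (hb k δ h0 hδ)⟩,
    fun k => tendsto_of_tendsto_of_tendsto_of_le_of_le tendsto_const_nhds (hs k)
      (fun _ => zero_le) fun δ => var_translate (g k) a X δ⟩

section OneGroup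

variable {K : Type*} [CommGroup K] [TopologicalSpace K] [IsTopologicalGroup K] [CompactSpace K]
  [T2Space K] [TotallyDisconnectedSpace K] [MulAction K M] [ContinuousSMul K M]

/-- If the group fixes a nonempty open set of a connected manifold, it fixes everything. -/
theorem fixed_everywhere (hΛo : IsOpen Λ) (hΛc : IsPreconnected Λ) (hΛd : Dense Λ)
    (hact : IsVarAction E K M Λ) {p : ℕ}
    (hpp : p.Prime) (hp : PIndices K p) {h : K}
    (hd : Dense ((Subgroup.zpowers h : Subgroup K) : Set K)) {W : Set M} (hW : IsOpen W) (hne : (Λ ∩ W).Nonempty)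
    (hfix : ∀ x ∈ W, ∀ k : K, k • x = x) : ∀ (x : M) (k : K), k • x = x := by
  set F := {x : M | ∀ k : K, k • x = x}
  set O := interior F
  suffices hcl : closure O ∩ Λ ⊆ O by
    have hsub : Λ ⊆ F := (hΛc.subset_of_closure_inter_subset isOpen_interior
      (hne.mono (inter_subset_inter_right _ (interior_maximal hfix hW))) hcl).trans interior_subset
    intro x k
    exact (closure_minimal hsub isClosed_fixed (hΛd x)) k
  rintro x ⟨hx, hxΛ⟩
  by_contra hxO
  have hxF : x ∈ F := isClosed_fixed.closure_subset (closure_mono interior_subset hx)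
  set e := (chartAt E x).restrOpen Λ hΛo
  have he : RegChart Λ e := regChart_chartAt hΛo x
  have hxs : x ∈ e.source := ⟨mem_chart_source E x, hxΛ⟩
  set c := e x
  -- all group elements map a small ball into the chart
  have hev : ∀ᶠ z in 𝓝 c, ∀ k ∈ (univ : Set K), k • e.symm z ∈ e.source := by
    refine isCompact_univ.eventually_forall_of_forall_eventually fun k _ => ?_
    have h1 : ContinuousAt (fun q : E × K => q.2 • e.symm q.1) (c, k) :=
      continuousAt_snd.smul ((e.continuousAt_symm (e.map_source hxs)).comp (f := fun q : E × K => q.1) continuousAt_fst)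
    exact h1.eventually (e.open_source.mem_nhds (by simpa [c, e.left_inv hxs, hxF k] using hxs))
  obtain ⟨R, hR, hRsub⟩ : ∃ R > 0, closedBall c R ⊆
      {z | z ∈ e.target ∧ ∀ k : K, k • e.symm z ∈ e.source} := by
    obtain ⟨R, hR, h⟩ := Metric.nhds_basis_closedBall.mem_iff.1
      (inter_mem (e.open_target.mem_nhds (e.map_source hxs)) hev)
    exact ⟨R, hR, fun z hz => ⟨(h hz).1, fun k => (h hz).2 k (mem_univ _)⟩⟩
  have hRT : closedBall c R ⊆ e.target := fun z hz => (hRsub hz).1
  let B := e.symm ⁻¹' O
  -- a fixed point near `c`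
  obtain ⟨y, hy, hyO⟩ : ∃ y ∈ ball c (R / 4), e.symm y ∈ O := by
    have : e.symm '' ball c (R / 4) ∈ 𝓝 x := by
      have := e.symm.image_mem_nhds (x := c) (by simpa using e.map_source hxs)
        (ball_mem_nhds c (show (0 : ℝ) < R / 4 by positivity))
      simpa [c, e.left_inv hxs] using this
    obtain ⟨w, ⟨z, hz, rfl⟩, hw⟩ := mem_closure_iff_nhds.1 hx _ this
    exact ⟨z, hz, hw⟩
  -- nearest point which is not in the interior of the fixed set
  set C := {z ∈ closedBall c (R / 2) | e.symm z ∉ O}
  have hCc : IsCompact C := (isCompact_closedBall c (R / 2)).of_isClosed_subset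
    ((e.continuousOn_symm.mono fun z hz =>
      hRT (closedBall_subset_closedBall (by linarith) hz)).preimage_isClosed_of_isClosed
        isClosed_closedBall isOpen_interior.isClosed_compl) fun z hz => hz.1
  have hcC : c ∈ C := ⟨mem_closedBall_self (by positivity), by simpa [c, e.left_inv hxs] using hxO⟩
  obtain ⟨x', hx'C, hmin⟩ := hCc.exists_isMinOn ⟨c, hcC⟩
    (f := fun z => dist z y) (continuous_id.dist continuous_const).continuousOn
  set s := dist x' y
  have hs : 0 < s := dist_pos.2 fun h => hx'C.2 (h ▸ hyO)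
  have hsR : s < R / 4 := (hmin hcC).trans_lt (by simpa [dist_comm] using mem_ball.1 hy)
  have hy' := mem_ball.1 hy
  have hx'c : dist x' c < R / 2 := by linarith [dist_triangle x' y c]
  have hballO : ∀ z ∈ ball y s, e.symm z ∈ O := by
    intro z hz
    by_contra h
    have hz' := mem_ball.1 hz
    have : z ∈ C := ⟨mem_closedBall.2 (by linarith [dist_triangle z y c]), h⟩
    exact absurd (hmin this) (not_le.2 hz')
  have hT : ∀ v ∈ closedBall (0 : E) (R / 4), x' + v ∈ closedBall c R := by
    intro v hv
    rw [mem_closedBall_zero_iff] at hv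
    rw [mem_closedBall]
    have : dist (x' + v) x' = ‖v‖ := by simp
    linarith [dist_triangle (x' + v) x' c]
  have hmaps : MapsBall (G := K) e univ c R := ⟨hRT, fun k _ z hz => (hRsub hz).2 k⟩
  have hx'B : x' ∈ closedBall c R := mem_closedBall.2 (by linarith)
  have hx'fix : ∀ k : K, chartRep e k x' = x' := by
    intro k
    have hmem : x' ∈ closure (ball y s) := by
      rw [closure_ball y hs.ne']; exact mem_closedBall.2 le_rfl
    have hsub : closure (ball y s) ⊆ closedBall c R := closure_minimal
      (fun z hz => mem_closedBall.2 (by linarith [dist_triangle z y c, mem_ball.1 hz]))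
      isClosed_closedBall
    refine (EqOn.of_subset_closure (s := ball y s) ?_ ((continuousOn_chartRep hmaps).comp
      (continuousOn_const.prodMk continuousOn_id) fun z hz => ⟨mem_univ k, hsub hz⟩)
      continuousOn_id subset_closure subset_rfl) hmem
    intro z hz
    have h : k • e.symm z = e.symm z := interior_subset (hballO z hz) k
    simp only [Function.comp_apply, chartRep, id_eq]
    rw [h]
    exact e.right_inv (hRT (hsub (subset_closure hz)))
  set f : K → E → E := fun k v => chartRep e k (x' + v) - x'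
  have hf : IsLocalAction f 0 (R / 4) := by
    have hc := isLocalAction_chartRep hmaps
    refine ⟨?_, fun v hv => ?_, fun k l v hv hlv => ?_⟩
    · exact ((continuousOn_chartRep hmaps).comp
        (continuous_fst.prodMk (continuous_const.add continuous_snd)).continuousOn
        fun q hq => ⟨mem_univ _, hT q.2 hq.2⟩).sub continuousOn_const
    · simp [f, hc.one _ (hT v hv)]
    · simp only [f, add_sub_cancel]
      rw [hc.mul k l _ (hT v hv) (by simpa [f] using hT _ hlv)]
  rcases subsingleton_or_nontrivial K with hK | hK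
  · exact hxO (mem_interior_iff_mem_nhds.2 (Eventually.of_forall fun y k => by
      rw [Subsingleton.elim k 1, one_smul] : ∀ᶠ y in 𝓝 x, ∀ k : K, k • y = y))
  obtain ⟨C⟩ := Frac.exists_procyclic hpp hp hd
  have htame : Tame f 0 (R / 4) (closedBall 0 (R / 4 / 2)) := by
    refine ⟨id, ball 0 (R / 4), isOpen_ball, continuousOn_id,
      fun v hv => ball_subset_closedBall hv, ?_, fun C hCD hC => ?_⟩
    · rw [image_id]; exact closedBall_subset_ball (by linarith)
    have hXc : IsCompact ((fun v => x' + v) '' C) := hC.image (continuous_const.add continuous_id)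
    have hXB : (fun v => x' + v) '' C ⊆ closedBall c R := by
      rintro _ ⟨v, hv, rfl⟩; exact hT v (ball_subset_closedBall (hCD hv))
    have hu := unifVar_of_germ hact he hXc (hXB.trans hRT) (fun k : K => k)
      (fun k z hz => (hRsub (hXB hz)).2 k)
      (fun z hz => locally_finite_image hact hpp hp hd hΛo (he.mem (e.map_target (hXB.trans hRT hz))))
    exact unifVar_translate hu
  have hper : ∃ V ∈ 𝓝 (1 : K), ∀ᶠ v in 𝓝 (0 : E), ∀ l ∈ V, f l v = v := by
    obtain ⟨S, hS, hSfix⟩ := locally_finite_image hact hpp hp hd hΛo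
      (he.mem (e.map_target (hRT hx'B)))
    refine ⟨S, hS.mem_nhds S.one_mem, ?_⟩
    have h3 : Tendsto (fun v : E => e.symm (x' + v)) (𝓝 0) (𝓝 (e.symm x')) := by
      have h4 : Tendsto (fun v : E => x' + v) (𝓝 0) (𝓝 x') :=
        (continuous_const.add continuous_id).tendsto' 0 x' (add_zero _)
      exact (e.continuousAt_symm (hRT hx'B)).tendsto.comp h4
    filter_upwards [h3.eventually hSfix,
      closedBall_mem_nhds (0 : E) (show 0 < R / 4 by positivity)] with v hv hvB l hl
    simp [f, chartRep, hv l hl, e.right_inv (hRT (hT v hvB))]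
  set u := s⁻¹ • (x' - y)
  have hu : ‖u‖ = 1 := by
    rw [norm_smul, norm_inv, Real.norm_eq_abs, abs_of_pos hs, ← dist_eq_norm,
      inv_mul_cancel₀ hs.ne']
  have hsu : s • u = x' - y := smul_inv_smul₀ hs.ne' _
  refine not_touching hf hpp C (by positivity) (fun k => by simp [f, hx'fix k]) hper htame hs hu
    ?_ ?_
  · intro v hv hvB k
    have hvy : x' + v ∈ ball y s := by
      rw [mem_ball, dist_eq_norm]
      rw [mem_ball, dist_eq_norm, sub_neg_eq_add, hsu] at hv
      rwa [show x' + v - y = v + (x' - y) by abel]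
    have h : k • e.symm (x' + v) = e.symm (x' + v) := interior_subset (hballO _ hvy) k
    simp [f, chartRep, h, e.right_inv (hRT (hT v hvB))]
  · intro a ha
    by_contra hnone
    push Not at hnone
    refine hx'C.2 (mem_interior_iff_mem_nhds.2 ?_)
    have : e.symm '' ball x' (min a (R / 4)) ∈ 𝓝 (e.symm x') :=
      e.symm.image_mem_nhds (by simpa using hRT hx'B) (ball_mem_nhds _ (by positivity))
    filter_upwards [this] with z hz
    obtain ⟨w, hw, rfl⟩ := hz
    intro k
    rw [mem_ball, dist_eq_norm] at hw
    have hwB : w ∈ closedBall c R := by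
      simpa using hT (w - x') (mem_closedBall_zero_iff.2 (hw.le.trans (min_le_right _ _)))
    have h := hnone (w - x') (lt_of_lt_of_le hw (min_le_left _ _)) k
    simp only [f, add_sub_cancel, sub_left_inj] at h
    exact e.injOn ((hRsub hwB).2 k) (e.map_target (hRT hwB))
      (h.trans (e.right_inv (hRT hwB)).symm)

end OneGroup

variable {G : Type*} [Group G] [TopologicalSpace G] [IsTopologicalGroup G] [T2Space G]
  [LocallyCompactSpace G] [MulAction G M] [ContinuousSMul G M]

/-- Near the identity all compact procyclic pro-p subgroups fix a common open set. -/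
theorem exists_fixed_open [Nonempty M] (hΛo : IsOpen Λ) (hΛd : Dense Λ)
    (hact : IsVarAction E G M Λ) :
    ∃ U ∈ 𝓝 (1 : G), ∃ W : Set M, IsOpen W ∧ W.Nonempty ∧
      ∀ (P : Subgroup G) (p : ℕ), (P : Set G) ⊆ U → IsCompact (P : Set G) →
        IsTotallyDisconnected (P : Set G) →
        (∀ a ∈ P, ∀ b ∈ P, a * b = b * a) → p.Prime → PIndices P p →
        (∃ h : P, Dense ((Subgroup.zpowers h : Subgroup P) : Set P)) →
          ∀ x ∈ W, ∀ g ∈ P, g • x = x := by
  obtain ⟨x, hxΛ⟩ := hΛd.nonempty
  set e := (chartAt E x).restrOpen Λ hΛo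
  have he : RegChart Λ e := regChart_chartAt hΛo x
  obtain ⟨r, hr, hrT⟩ := exists_closedBall_subset_target e
    (e.map_source (show x ∈ e.source from ⟨mem_chart_source E x, hxΛ⟩))
  set z₀ := e x
  refine ⟨{g | ∀ z ∈ closedBall z₀ r, g • e.symm z ∈ e.source ∧
    dist (chartRep e g z) z < r / 64}, eventually_small hrT (by positivity),
    e.symm '' ball z₀ (r / 2), e.isOpen_image_symm_of_subset_target isOpen_ball ?_,
    (nonempty_ball.2 (by positivity)).image _, ?_⟩
  · exact fun z hz => hrT (ball_subset_closedBall (ball_subset_ball (by linarith) hz))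
  intro P p hPU hPc htd hcomm hpp hp ⟨h, hd⟩ y hy g hg
  let : CommGroup P := { (inferInstance : Group P) with
    mul_comm := fun a b => Subtype.ext (hcomm a a.2 b b.2) }
  have : IsTopologicalGroup P := inferInstanceAs (IsTopologicalGroup P)
  have : CompactSpace P := isCompact_iff_compactSpace.1 hPc
  have : TotallyDisconnectedSpace P := totallyDisconnectedSpace_subtype_iff.2 htd
  have : ContinuousSMul P M := Subgroup.continuousSMul
  have hP : IsVarAction E P M Λ := fun s => hact s
  have hmaps : MapsBall (G := P) e univ z₀ r :=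
    ⟨hrT, fun s _ z hz => (hPU s.2 z hz).1⟩
  have htame : Tame (fun s : P => chartRep e s) z₀ r (closedBall z₀ (15 * r / 16)) := by
    refine ⟨id, ball z₀ r, isOpen_ball, continuousOn_id,
      fun v hv => ball_subset_closedBall hv, ?_, fun C hCD hC => ?_⟩
    · rw [image_id]; exact closedBall_subset_ball (by linarith)
    · exact unifVar_of_germ hP he hC (fun v hv => hrT (ball_subset_closedBall (hCD hv)))
        (fun s : P => s) (fun s v hv => (hPU s.2 v (ball_subset_closedBall (hCD hv))).1)
        (fun v hv => locally_finite_image hP hpp hp hd hΛo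
          (he.mem (e.map_target (hrT (ball_subset_closedBall (hCD hv))))))
  have hfix := fixed_of_small' (isLocalAction_chartRep hmaps) hpp hp hd hr
    (fun s z hz => (hPU s.2 z hz).2.le) (by linarith) htame
  obtain ⟨z, hz, rfl⟩ := hy
  have hzB : z ∈ closedBall z₀ r := ball_subset_closedBall (ball_subset_ball (by linarith) hz)
  exact e.injOn (hPU hg z hzB).1 (e.map_target (hrT hzB))
    ((hfix z hz ⟨g, hg⟩).trans (e.right_inv (hrT hzB)).symm)

/-- Small compact totally disconnected subgroups act trivially. -/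
theorem small_subgroups_trivial [Nonempty M] [FaithfulSMul G M]
    (hΛo : IsOpen Λ) (hΛc : IsPreconnected Λ) (hΛd : Dense Λ)
    (hact : IsVarAction E G M Λ) :
    ∃ U ∈ 𝓝 (1 : G), ∀ H : Subgroup G, (H : Set G) ⊆ U → IsCompact (H : Set G) →
      IsTotallyDisconnected (H : Set G) → H = ⊥ := by
  obtain ⟨U, hU, W, hWo, hWne, hW⟩ := exists_fixed_open hΛo hΛd hact
  refine ⟨U, hU, fun H hHU hc htd => ?_⟩
  by_contra hne
  obtain ⟨h, -, hh1, p, hpp, P, hPH, hhP, hPc, hcomm, hp, hgen⟩ :=
    Frac.exists_pIndices_subgroup H hc htd hne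
  let : CommGroup P := { (inferInstance : Group P) with
    mul_comm := fun a b => Subtype.ext (hcomm a a.2 b b.2) }
  have : CompactSpace P := isCompact_iff_compactSpace.1 hPc
  have htdP : IsTotallyDisconnected (P : Set G) := fun t ht ht' => htd t (ht.trans hPH) ht'
  have : TotallyDisconnectedSpace P := totallyDisconnectedSpace_subtype_iff.2 htdP
  have hfix := fixed_everywhere hΛo hΛc hΛd (fun s => hact s : IsVarAction E P M Λ) hpp hp hgen.choose_spec
    hWo (by simpa [inter_comm] using hΛd.inter_open_nonempty W hWo hWne)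
    fun x hx k => hW P p (fun a ha => hHU (hPH ha)) hPc htdP hcomm hpp hp hgen x hx k k.2
  exact hh1 (eq_of_smul_eq_smul (α := M) fun x => by
    rw [one_smul]; exact hfix x ⟨h, hhP⟩)

theorem discrete_of_totallyDisconnected [Nonempty M] [FaithfulSMul G M]
    (hΛo : IsOpen Λ) (hΛc : IsPreconnected Λ) (hΛd : Dense Λ)
    (hact : IsVarAction E G M Λ) [TotallyDisconnectedSpace G] :
    DiscreteTopology G := by
  obtain ⟨U, hU, hsmall⟩ := small_subgroups_trivial hΛo hΛc hΛd hact
  obtain ⟨H, hHo, hHc, hHU⟩ := exists_compact_open_subgroup hU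
  have hbot := hsmall H hHU hHc (isTotallyDisconnected_of_totallyDisconnectedSpace _)
  rw [hbot, Subgroup.coe_bot] at hHo
  exact discreteTopology_of_isOpen_singleton_one hHo

theorem no_padic_subgroup [Nonempty M] [FaithfulSMul G M]
    (hΛo : IsOpen Λ) (hΛc : IsPreconnected Λ) (hΛd : Dense Λ)
    (hact : IsVarAction E G M Λ) (p : ℕ) [Fact p.Prime]
    (ι : Multiplicative ℤ_[p] →* G) (hι : Continuous ι) : ¬ Injective ι := by
  intro hinj
  obtain ⟨U, hU, hsmall⟩ := small_subgroups_trivial hΛo hΛc hΛd hact
  have hnb : ι ⁻¹' U ∈ 𝓝 (1 : Multiplicative ℤ_[p]) := hι.continuousAt (by rwa [map_one])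
  obtain ⟨H, hHo, hHc, hHU⟩ := exists_compact_open_subgroup hnb
  have hemb := hι.isClosedEmbedding hinj
  have hbot := hsmall (H.map ι) (by rintro _ ⟨a, ha, rfl⟩; exact hHU ha) (hHc.image hι)
    (hemb.isEmbedding.isTotallyDisconnected_image.2
      (isTotallyDisconnected_of_totallyDisconnectedSpace _))
  rw [Subgroup.map_eq_bot_iff_of_injective _ hinj] at hbot
  rw [hbot, Subgroup.coe_bot] at hHo
  have : DiscreteTopology (Multiplicative ℤ_[p]) := discreteTopology_of_isOpen_singleton_one hHo
  have : Finite (Multiplicative ℤ_[p]) := finite_of_compact_of_discrete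
  have hZ : Finite ℤ_[p] := Finite.of_equiv _ (Multiplicative.toAdd (α := ℤ_[p]))
  exact _root_.not_finite ℤ_[p]

end

end Vale.Agent.P228.Var
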